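import Vale.Agent.P281.MF.Hol

/-!
Parametric integrals of holomorphic functions of several variables are holomorphic (only the
function has to be dominated locally, not its derivative), analytic and smooth.
-/

open Set Filter Metric Topology MeasureTheory
open scoped ContDiff

namespace Vale.Agent.P273.H604

variable {E F α : Type*} [NormedAddCommGroup E] [NormedSpace ℂ E]
  [NormedAddCommGroup F] [NormedSpace ℂ F] [MeasurableSpace α] {μ : Measure α}

/-- The derivative of a family of functions is measurable in the parameter. -/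
theorem aestronglyMeasurable_fderiv_apply {f : E → α → F} {z : E} {r : ℝ} (hr : 0 < r)
    (hm : ∀ w ∈ ball z r, AEStronglyMeasurable (f w) μ)
    (hd : ∀ᵐ t ∂μ, DifferentiableAt ℂ (fun w => f w t) z) (v : E) :
    AEStronglyMeasurable (fun t => fderiv ℂ (fun w => f w t) z v) μ := by
  have hcn : Tendsto (fun n : ℕ => ‖((n : ℂ))‖) atTop atTop := by
    simpa using tendsto_natCast_atTop_atTop (R := ℝ)
  have hc : Tendsto (fun n : ℕ => z + ((n : ℂ))⁻¹ • v) atTop (𝓝 z) := by
    have h1 : Tendsto (fun n : ℕ => ((n : ℂ))⁻¹) atTop (𝓝 0) :=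
      tendsto_inv₀_cobounded.comp (tendsto_norm_atTop_iff_cobounded.1 hcn)
    simpa using (h1.smul_const v).const_add z
  obtain ⟨n0, hn0⟩ := eventually_atTop.1 (hc.eventually (ball_mem_nhds z hr))
  refine aestronglyMeasurable_of_tendsto_ae (u := atTop)
    (f := fun (n : ℕ) t => (((n + n0 : ℕ) : ℂ)) •
      (f (z + (((n + n0 : ℕ) : ℂ))⁻¹ • v) t - f z t)) ?_ ?_
  · intro n
    exact ((hm _ (hn0 (n + n0) (by omega))).sub (hm z (mem_ball_self hr))).const_smul _
  · filter_upwards [hd] with t ht
    exact (ht.hasFDerivAt.lim v hcn).comp (tendsto_add_atTop_nat n0)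

/-- The derivative of a family of functions is measurable in the parameter. -/
theorem aestronglyMeasurable_fderiv [FiniteDimensional ℂ E] {f : E → α → F} {z : E} {r : ℝ}
    (hr : 0 < r) (hm : ∀ w ∈ ball z r, AEStronglyMeasurable (f w) μ)
    (hd : ∀ᵐ t ∂μ, DifferentiableAt ℂ (fun w => f w t) z) :
    AEStronglyMeasurable (fun t => fderiv ℂ (fun w => f w t) z) μ := by
  set b := Module.finBasis ℂ E with hb
  set c : Fin (Module.finrank ℂ E) → (E →L[ℂ] ℂ) := fun i =>
    LinearMap.toContinuousLinearMap (b.coord i) with hcdef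
  have hid : ∀ L : E →L[ℂ] F, L = ∑ i, (c i).smulRight (L (b i)) := by
    intro L
    ext x
    have := congrArg L (b.sum_repr x)
    rw [map_sum] at this
    simp only [map_smul] at this
    rw [← this]
    simp [hcdef]
  have h1 : (fun t => fderiv ℂ (fun w => f w t) z) = fun t =>
      ∑ i, (c i).smulRight (fderiv ℂ (fun w => f w t) z (b i)) := by
    funext t; exact hid _
  rw [h1]
  refine Finset.aestronglyMeasurable_fun_sum _ fun i _ => ?_
  have h2 := aestronglyMeasurable_fderiv_apply hr hm hd (b i)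
  exact ((ContinuousLinearMap.smulRightL ℂ E F (c i)).continuous).comp_aestronglyMeasurable h2

/-- **Parametric integrals of holomorphic functions of several variables.** -/
theorem hasFDerivAt_integral [FiniteDimensional ℂ E] {f : E → α → F} {z : E} {r : ℝ}
    (hr : 0 < r) (hm : ∀ w ∈ ball z r, AEStronglyMeasurable (f w) μ)
    (hd : ∀ᵐ t ∂μ, DifferentiableOn ℂ (fun w => f w t) (ball z r)) {g : α → ℝ}
    (hg : Integrable g μ) (hb : ∀ᵐ t ∂μ, ∀ w ∈ ball z r, ‖f w t‖ ≤ g t) :
    HasFDerivAt (fun w => ∫ t, f w t ∂μ) (∫ t, fderiv ℂ (fun w => f w t) z ∂μ) z := by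
  refine hasFDerivAt_integral_of_dominated_of_fderiv_le (F := f)
    (F' := fun w t => fderiv ℂ (fun w => f w t) w) (bound := fun t => g t / (r / 2))
    (ball_mem_nhds z (half_pos hr)) ?_ ?_ ?_ ?_ ?_ ?_
  · filter_upwards [ball_mem_nhds z hr] with w hw using hm w hw
  · refine hg.mono' (hm z (mem_ball_self hr)) ?_
    filter_upwards [hb] with t ht using ht z (mem_ball_self hr)
  · refine aestronglyMeasurable_fderiv hr hm ?_
    filter_upwards [hd] with t ht using ht.differentiableAt (ball_mem_nhds z hr)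
  · filter_upwards [hd, hb] with t ht hbt w hw
    have hsub : ball w (r / 2) ⊆ ball z r := by
      intro x hx
      rw [mem_ball] at hx hw ⊢
      calc dist x z ≤ dist x w + dist w z := dist_triangle _ _ _
        _ < r / 2 + r / 2 := add_lt_add hx hw
        _ = r := by ring
    exact P281.MF.norm_fderiv_le_of_ball (half_pos hr) (ht.mono hsub) fun y hy => hbt y (hsub hy)
  · exact hg.div_const _
  · filter_upwards [hd] with t ht w hw
    exact (ht.differentiableAt (isOpen_ball.mem_nhds
      (ball_subset_ball (by linarith) hw))).hasFDerivAt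

/-- **Parametric integrals of holomorphic functions of several variables.** Only the function is
dominated, locally in the parameter. -/
theorem differentiableOn_integral [FiniteDimensional ℂ E] {U : Set E} (hU : IsOpen U)
    {f : E → α → F} (hm : ∀ z ∈ U, AEStronglyMeasurable (f z) μ)
    (hd : ∀ᵐ t ∂μ, DifferentiableOn ℂ (fun z => f z t) U)
    (hb : ∀ z ∈ U, ∃ r > 0, ∃ g : α → ℝ, Integrable g μ ∧
      ∀ᵐ t ∂μ, ∀ w ∈ ball z r, ‖f w t‖ ≤ g t) :
    DifferentiableOn ℂ (fun z => ∫ t, f z t ∂μ) U := by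
  intro z hz
  obtain ⟨r1, hr1, g, hg, hgb⟩ := hb z hz
  obtain ⟨r2, hr2, hU2⟩ := Metric.isOpen_iff.1 hU z hz
  have h1 : ball z (min r1 r2) ⊆ ball z r1 := ball_subset_ball (min_le_left _ _)
  have h2 : ball z (min r1 r2) ⊆ U := (ball_subset_ball (min_le_right _ _)).trans hU2
  refine (hasFDerivAt_integral (lt_min hr1 hr2) (fun w hw => hm w (h2 hw)) ?_ hg
    ?_).differentiableAt.differentiableWithinAt
  · filter_upwards [hd] with t ht using ht.mono h2
  · filter_upwards [hgb] with t ht w hw using ht w (h1 hw)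

/-- Parametric integrals of holomorphic functions of several variables are analytic. -/
theorem analyticOnNhd_integral [FiniteDimensional ℂ E] [CompleteSpace F] {U : Set E}
    (hU : IsOpen U) {f : E → α → F} (hm : ∀ z ∈ U, AEStronglyMeasurable (f z) μ)
    (hd : ∀ᵐ t ∂μ, DifferentiableOn ℂ (fun z => f z t) U)
    (hb : ∀ z ∈ U, ∃ r > 0, ∃ g : α → ℝ, Integrable g μ ∧
      ∀ᵐ t ∂μ, ∀ w ∈ ball z r, ‖f w t‖ ≤ g t) :
    AnalyticOnNhd ℂ (fun z => ∫ t, f z t ∂μ) U :=
  P281.MF.analyticOnNhd_of_differentiableOn hU (differentiableOn_integral hU hm hd hb)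

/-- Continuous functions on `U × K`, `K` compact, are locally bounded in the parameter. -/
theorem exists_bound_ball [FiniteDimensional ℂ E] {β : Type*} [TopologicalSpace β]
    {U : Set E} (hU : IsOpen U) {K : Set β} (hK : IsCompact K) {f : E × β → F}
    (hf : ContinuousOn f (U ×ˢ K)) {z : E} (hz : z ∈ U) :
    ∃ r > 0, ball z r ⊆ U ∧ ∃ C : ℝ, ∀ w ∈ ball z r, ∀ t ∈ K, ‖f (w, t)‖ ≤ C := by
  have : ProperSpace E := FiniteDimensional.proper ℂ E
  obtain ⟨r, hr, hrU⟩ := Metric.nhds_basis_closedBall.mem_iff.1 (hU.mem_nhds hz)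
  obtain ⟨C, hC⟩ := ((isCompact_closedBall z r).prod hK).exists_bound_of_continuousOn
    (hf.mono (prod_mono hrU le_rfl))
  exact ⟨r, hr, ball_subset_closedBall.trans hrU, C, fun w hw t ht =>
    hC (w, t) ⟨ball_subset_closedBall hw, ht⟩⟩

/-- Integrals over a compact interval of functions which are holomorphic in the parameters and
jointly continuous. -/
theorem differentiableOn_intervalIntegral [FiniteDimensional ℂ E] [CompleteSpace F] {U : Set E}
    (hU : IsOpen U) {a b : ℝ} (hab : a ≤ b) {f : E → ℝ → F}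
    (hc : ContinuousOn (fun p : E × ℝ => f p.1 p.2) (U ×ˢ Icc a b))
    (hd : ∀ t ∈ Icc a b, DifferentiableOn ℂ (fun z => f z t) U) :
    DifferentiableOn ℂ (fun z => ∫ t in a..b, f z t) U := by
  simp_rw [intervalIntegral.integral_of_le hab]
  refine differentiableOn_integral hU (fun z hz => ?_) ?_ fun z hz => ?_
  · have h1 : ContinuousOn (f z) (Icc a b) := by
      refine hc.comp (f := fun t => (z, t)) (by fun_prop) fun t ht => ⟨hz, ht⟩
    exact (h1.mono Ioc_subset_Icc_self).aestronglyMeasurable measurableSet_Ioc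
  · filter_upwards [ae_restrict_mem measurableSet_Ioc] with t ht
    exact hd t (Ioc_subset_Icc_self ht)
  · obtain ⟨r, hr, -, C, hC⟩ := exists_bound_ball hU isCompact_Icc hc hz
    refine ⟨r, hr, fun _ => C, integrable_const C, ?_⟩
    filter_upwards [ae_restrict_mem measurableSet_Ioc] with t ht w hw
    exact hC w hw t (Ioc_subset_Icc_self ht)

/-- Integrals over a compact interval of functions which are holomorphic in the parameters and
jointly continuous are analytic. -/
theorem analyticOnNhd_intervalIntegral [FiniteDimensional ℂ E] [CompleteSpace F] {U : Set E}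
    (hU : IsOpen U) {a b : ℝ} (hab : a ≤ b) {f : E → ℝ → F}
    (hc : ContinuousOn (fun p : E × ℝ => f p.1 p.2) (U ×ˢ Icc a b))
    (hd : ∀ t ∈ Icc a b, DifferentiableOn ℂ (fun z => f z t) U) :
    AnalyticOnNhd ℂ (fun z => ∫ t in a..b, f z t) U :=
  P281.MF.analyticOnNhd_of_differentiableOn hU (differentiableOn_intervalIntegral hU hab hc hd)

/-- Holomorphic functions of several variables are smooth (real sense). -/
theorem contDiffOn_real_of_differentiableOn [FiniteDimensional ℂ E] [CompleteSpace F] {U : Set E}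
    [NormedSpace ℝ E] [IsScalarTower ℝ ℂ E] [NormedSpace ℝ F] [IsScalarTower ℝ ℂ F]
    (hU : IsOpen U) {f : E → F} (hf : DifferentiableOn ℂ f U) {n : WithTop ℕ∞} :
    ContDiffOn ℝ n f U :=
  ((P281.MF.analyticOnNhd_of_differentiableOn hU hf).restrictScalars (𝕜 := ℝ)).contDiffOn
    hU.uniqueDiffOn

end Vale.Agent.P273.H604
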