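import Vale.Agent.P273.H214.WCut
import Vale.Agent.P273.H604.ParHol

/-!
# P273, row BULK-F4: odd primitives near infinity

`b : Fin 6 → ℂ` are the roots, `y ^ 2 = ∏ (x - b i)`.  `EIc k b x y` is the integral of
`z ^ k dz / y` from infinity to `(x, y)` for `x` large, `k = 0, 1`; it is odd in `y` by construction.
-/

namespace Vale.Agent.P273.H604

open scoped ContDiff Topology
open Set Filter MeasureTheory Finset
open H214 (psq psq_sq psq_ne_zero psq_one norm_psq_sq one_add_mem contDiffAt_psq Bs)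

noncomputable section

/-- The radius near infinity. -/
def Rr (b : Bs) : ℝ := 8 * Real.sqrt (1 + ∑ i, ‖b i‖ ^ 2)

/-- The cut-off near infinity. -/
def chiI (b : Bs) (x : ℂ) : ℝ := Real.smoothTransition (‖x‖ ^ 2 / Rr b ^ 2 - 1)

theorem Rr_sq (b : Bs) : Rr b ^ 2 = 64 * (1 + ∑ i, ‖b i‖ ^ 2) := by
  have : (0 : ℝ) ≤ 1 + ∑ i, ‖b i‖ ^ 2 := by positivity
  rw [Rr, mul_pow, Real.sq_sqrt this]; norm_num

theorem eight_le_Rr (b : Bs) : 8 ≤ Rr b := by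
  have h : (1 : ℝ) ≤ Real.sqrt (1 + ∑ i, ‖b i‖ ^ 2) := by
    rw [Real.one_le_sqrt]
    have : 0 ≤ ∑ i, ‖b i‖ ^ 2 := by positivity
    linarith
  rw [Rr]; linarith

theorem Rr_pos (b : Bs) : 0 < Rr b := by linarith [eight_le_Rr b]

theorem norm_le_Rr (b : Bs) (i : Fin 6) : 8 * ‖b i‖ ≤ Rr b := by
  have h1 : ‖b i‖ ^ 2 ≤ 1 + ∑ i, ‖b i‖ ^ 2 := by
    have := Finset.single_le_sum (f := fun i => ‖b i‖ ^ 2) (fun i _ => by positivity)
      (Finset.mem_univ i)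
    linarith
  have h2 : ‖b i‖ ≤ Real.sqrt (1 + ∑ i, ‖b i‖ ^ 2) := Real.le_sqrt_of_sq_le h1
  rw [Rr]; linarith

theorem contDiff_Rr : ContDiff ℝ ∞ Rr := by
  unfold Rr
  refine contDiff_const.mul (ContDiff.sqrt ?_ fun b => ?_)
  · refine contDiff_const.add (ContDiff.sum fun i _ => ?_)
    exact ContDiff.norm_sq ℝ (by fun_prop)
  · have : 0 ≤ ∑ i, ‖b i‖ ^ 2 := by positivity
    positivity

theorem contDiff_chiI : ContDiff ℝ ∞ (fun p : Bs × ℂ => chiI p.1 p.2) := by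
  unfold chiI
  refine Real.smoothTransition.contDiff.comp ?_
  refine ContDiff.sub ?_ contDiff_const
  refine ContDiff.div ?_ ((contDiff_Rr.comp contDiff_fst).pow 2) fun p => ?_
  · exact ContDiff.norm_sq ℝ (by fun_prop)
  · have := Rr_pos p.1
    positivity

theorem chiI_eq_zero {b : Bs} {x : ℂ} (h : ‖x‖ ≤ Rr b) : chiI b x = 0 := by
  have h1 := Rr_pos b
  refine Real.smoothTransition.zero_of_nonpos ?_
  have : ‖x‖ ^ 2 / Rr b ^ 2 ≤ 1 := by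
    rw [div_le_one (by positivity)]
    exact pow_le_pow_left₀ (norm_nonneg _) h 2
  linarith

theorem chiI_eq_one {b : Bs} {x : ℂ} (h : 2 * Rr b ^ 2 ≤ ‖x‖ ^ 2) : chiI b x = 1 := by
  have h1 := Rr_pos b
  refine Real.smoothTransition.one_of_one_le ?_
  have : 2 ≤ ‖x‖ ^ 2 / Rr b ^ 2 := by
    rw [le_div_iff₀ (by positivity)]; exact h
  linarith

theorem chiI_nonneg (b : Bs) (x : ℂ) : 0 ≤ chiI b x := Real.smoothTransition.nonneg _

theorem chiI_le_one (b : Bs) (x : ℂ) : chiI b x ≤ 1 := Real.smoothTransition.le_one _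

/-- The domain near `w = 1 / x = 0`. -/
def DI : Set (Bs × ℂ) := {p | ∀ i, 2 * ‖p.2 * p.1 i‖ < 1}

theorem isOpen_DI : IsOpen DI := by
  have : DI = ⋂ i : Fin 6, {p : Bs × ℂ | 2 * ‖p.2 * p.1 i‖ < 1} := by
    ext p; simp [DI]
  rw [this]
  exact isOpen_iInter_of_finite fun i => isOpen_lt (by fun_prop) (by fun_prop)

theorem mem_DI_zero (b : Bs) : (b, (0 : ℂ)) ∈ DI := fun i => by simp

theorem mem_DI_inv {b : Bs} {x : ℂ} (h : ∀ i, 2 * ‖b i‖ < ‖x‖) : (b, x⁻¹) ∈ DI := by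
  intro i
  have hx : 0 < ‖x‖ := by linarith [h i, norm_nonneg (b i)]
  simp only [norm_mul, norm_inv]
  rw [show 2 * (‖x‖⁻¹ * ‖b i‖) = 2 * ‖b i‖ / ‖x‖ by field_simp, div_lt_one hx]
  exact h i

theorem two_mul_norm_lt {b : Bs} {x : ℂ} (h : Rr b ≤ ‖x‖) (i : Fin 6) : 2 * ‖b i‖ < ‖x‖ := by
  have h1 := norm_le_Rr b i
  have h2 := eight_le_Rr b
  have h3 := norm_nonneg (b i)
  rcases eq_or_lt_of_le h3 with h4 | h4
  · rw [← h4]; linarith
  · linarith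

theorem mem_DI_of_chiI {b : Bs} {x : ℂ} (h : chiI b x ≠ 0) : (b, x⁻¹) ∈ DI := by
  refine mem_DI_inv (two_mul_norm_lt ?_)
  by_contra hx
  exact h (chiI_eq_zero (not_le.1 hx).le)

theorem mem_DI_mul {b : Bs} {w t : ℂ} (h : (b, w) ∈ DI) (ht : ‖t‖ ≤ 1) : (b, t * w) ∈ DI := by
  intro i
  have h1 := h i
  refine lt_of_le_of_lt ?_ h1
  simp only [norm_mul]
  have := mul_le_mul_of_nonneg_right ht (mul_nonneg (norm_nonneg w) (norm_nonneg (b i)))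
  nlinarith

/-- The normalised square root of `∏ (x - b i)`, `w = 1 / x`. -/
def Pinf (b : Bs) (w : ℂ) : ℂ := ∏ i, psq (1 - w * b i)

theorem Pinf_ne_zero (b : Bs) (w : ℂ) : Pinf b w ≠ 0 :=
  Finset.prod_ne_zero_iff.2 fun _ _ => psq_ne_zero _

@[simp] theorem Pinf_zero (b : Bs) : Pinf b 0 = 1 := by simp [Pinf]

theorem one_sub_mem {b : Bs} {w : ℂ} (h : (b, w) ∈ DI) (i : Fin 6) :
    1 - w * b i ∈ Complex.slitPlane := by
  rw [sub_eq_add_neg]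
  refine one_add_mem ?_
  have := h i
  simp only at this
  rw [norm_neg]; linarith [norm_nonneg (w * b i)]

theorem contDiffAt_Pinf {b : Bs} {w : ℂ} (h : (b, w) ∈ DI) :
    ContDiffAt ℂ ∞ (fun p : Bs × ℂ => Pinf p.1 p.2) (b, w) := by
  unfold Pinf
  refine contDiffAt_prod fun i _ => ?_
  have h1 : ContDiffAt ℂ ∞ (fun p : Bs × ℂ => 1 - p.2 * p.1 i) (b, w) := by fun_prop
  exact ContDiffAt.comp (g := psq) (f := fun p : Bs × ℂ => 1 - p.2 * p.1 i) (b, w)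
    (contDiffAt_psq (one_sub_mem h i)) h1

theorem differentiableAt_Pinf {b : Bs} {w : ℂ} (h : (b, w) ∈ DI) :
    DifferentiableAt ℂ (fun p : Bs × ℂ => Pinf p.1 p.2) (b, w) :=
  (contDiffAt_Pinf h).differentiableAt (by simp)

theorem Pinf_sq {b : Bs} {w : ℂ} (h : (b, w) ∈ DI) : Pinf b w ^ 2 = ∏ i, (1 - w * b i) := by
  unfold Pinf
  rw [← Finset.prod_pow]
  exact Finset.prod_congr rfl fun i _ => psq_sq (Complex.slitPlane_ne_zero (one_sub_mem h i))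

/-- `x³ Pinf b (1/x)` is a square root of `∏ (x - b i)`. -/
theorem cube_Pinf_sq {b : Bs} {x : ℂ} (hx : x ≠ 0) (h : (b, x⁻¹) ∈ DI) :
    (x ^ 3 * Pinf b x⁻¹) ^ 2 = ∏ i, (x - b i) := by
  rw [mul_pow, Pinf_sq h]
  have h1 : ∀ i, x - b i = x * (1 - x⁻¹ * b i) := fun i => by field_simp
  simp_rw [h1]
  rw [Finset.prod_mul_distrib]
  simp only [Finset.prod_const, Finset.card_univ, Fintype.card_fin]
  ring

theorem one_eighth_le_norm_Pinf {b : Bs} {w : ℂ} (h : (b, w) ∈ DI) : 1 / 8 ≤ ‖Pinf b w‖ := by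
  have h1 : (1 / 8 : ℝ) ^ 2 ≤ ‖Pinf b w‖ ^ 2 := by
    rw [← norm_pow, Pinf_sq h, norm_prod]
    have h2 : ∀ i ∈ (Finset.univ : Finset (Fin 6)), (1 / 2 : ℝ) ≤ ‖1 - w * b i‖ := by
      intro i _
      have h3 := norm_sub_norm_le (1 : ℂ) (w * b i)
      rw [norm_one] at h3
      have h4 := h i
      simp only at h4
      linarith
    calc (1 / 8 : ℝ) ^ 2 = ∏ _i : Fin 6, (1 / 2 : ℝ) := by
          simp only [Finset.prod_const, Finset.card_univ, Fintype.card_fin]; norm_num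
      _ ≤ _ := Finset.prod_le_prod (fun _ _ => by norm_num) h2
  exact (pow_le_pow_iff_left₀ (by norm_num) (norm_nonneg _) two_ne_zero).1 h1

/-- `∫₀¹ t^(1-k) / Pinf b (t w) dt`. -/
def Iinf (k : ℕ) (b : Bs) (w : ℂ) : ℂ := ∫ t in (0 : ℝ)..1, (t : ℂ) ^ (1 - k) / Pinf b (t * w)

theorem norm_ofReal_le {t : ℝ} (ht : t ∈ Icc (0 : ℝ) 1) : ‖(t : ℂ)‖ ≤ 1 := by
  rw [Complex.norm_real, Real.norm_eq_abs, abs_of_nonneg ht.1]; exact ht.2

theorem analyticOnNhd_Iinf (k : ℕ) : AnalyticOnNhd ℂ (fun p : Bs × ℂ => Iinf k p.1 p.2) DI := by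
  have hd : ∀ p ∈ DI, ∀ t ∈ Icc (0 : ℝ) 1,
      DifferentiableAt ℂ (fun q : (Bs × ℂ) × ℂ => q.2 ^ (1 - k) / Pinf q.1.1 (q.2 * q.1.2))
        (p, (t : ℂ)) := by
    intro p hp t ht
    have h1 : DifferentiableAt ℂ (fun q : (Bs × ℂ) × ℂ => ((q.1.1, q.2 * q.1.2) : Bs × ℂ))
      (p, (t : ℂ)) := by fun_prop
    have h2 : DifferentiableAt ℂ (fun q : (Bs × ℂ) × ℂ => Pinf q.1.1 (q.2 * q.1.2))
        (p, (t : ℂ)) :=
      DifferentiableAt.comp (g := fun p : Bs × ℂ => Pinf p.1 p.2)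
        (f := fun q : (Bs × ℂ) × ℂ => ((q.1.1, q.2 * q.1.2) : Bs × ℂ)) (p, (t : ℂ))
        (differentiableAt_Pinf (mem_DI_mul hp (norm_ofReal_le ht))) h1
    have h3 : DifferentiableAt ℂ (fun q : (Bs × ℂ) × ℂ => q.2 ^ (1 - k)) (p, (t : ℂ)) := by
      fun_prop
    simp only [div_eq_mul_inv]
    exact h3.mul (h2.fun_inv (Pinf_ne_zero _ _))
  refine analyticOnNhd_intervalIntegral isOpen_DI zero_le_one
    (f := fun (p : Bs × ℂ) (t : ℝ) => (t : ℂ) ^ (1 - k) / Pinf p.1 (t * p.2)) ?_ ?_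
  · rintro ⟨p, t⟩ ⟨hp, ht⟩
    have h1 := (hd p hp t ht).continuousAt
    have h2 : ContinuousAt (fun q : (Bs × ℂ) × ℝ => (q.1, (q.2 : ℂ))) (p, t) := by
      fun_prop
    exact (ContinuousAt.comp (f := fun q : (Bs × ℂ) × ℝ => (q.1, (q.2 : ℂ))) h1
      h2).continuousWithinAt
  · intro t ht p hp
    have h2 : DifferentiableAt ℂ (fun q : Bs × ℂ => (q, (t : ℂ))) p := by fun_prop
    exact (DifferentiableAt.comp (f := fun q : Bs × ℂ => (q, (t : ℂ))) p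
      (hd p hp t ht) h2).differentiableWithinAt

theorem contDiffOn_Iinf (k : ℕ) : ContDiffOn ℝ ∞ (fun p : Bs × ℂ => Iinf k p.1 p.2) DI :=
  contDiffOn_real_of_differentiableOn isOpen_DI (analyticOnNhd_Iinf k).differentiableOn

theorem norm_Iinf_le (k : ℕ) {b : Bs} {w : ℂ} (h : (b, w) ∈ DI) : ‖Iinf k b w‖ ≤ 8 := by
  have := intervalIntegral.norm_integral_le_of_norm_le_const (a := (0 : ℝ)) (b := 1) (C := 8)
    (f := fun t : ℝ => (t : ℂ) ^ (1 - k) / Pinf b (t * w)) ?_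
  · rw [Iinf]; simpa using this
  · intro t ht
    rw [Set.uIoc_of_le zero_le_one] at ht
    have ht' : t ∈ Icc (0 : ℝ) 1 := ⟨ht.1.le, ht.2⟩
    have h1 := one_eighth_le_norm_Pinf (mem_DI_mul h (norm_ofReal_le ht'))
    rw [norm_div, div_le_iff₀ (by linarith), norm_pow]
    have h2 : ‖(t : ℂ)‖ ^ (1 - k) ≤ 1 := pow_le_one₀ (norm_nonneg _) (norm_ofReal_le ht')
    linarith

/-- The integral of `z ^ k dz / y` from infinity to `(x, y)`, `k = 0, 1`. -/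
def EIc (k : ℕ) (b : Bs) (x y : ℂ) : ℂ :=
  -(x ^ (k + 1) * Pinf b x⁻¹ / y) * ∫ t in (0 : ℝ)..1, (t : ℂ) ^ (1 - k) / Pinf b (t * x⁻¹)

/-- The real odd primitive of `(a 0 + a 1 x) dx / y` near infinity. -/
def EI (a : Fin 2 → ℂ) (b : Bs) (x y : ℂ) : ℝ := (a 0 * EIc 0 b x y + a 1 * EIc 1 b x y).re

theorem EIc_eq (k : ℕ) (b : Bs) (x y : ℂ) :
    EIc k b x y = -(x ^ (k + 1) * Pinf b x⁻¹ / y) * Iinf k b x⁻¹ := rfl

theorem EIc_neg (k : ℕ) (b : Bs) (x y : ℂ) : EIc k b x (-y) = -EIc k b x y := by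
  rw [EIc_eq, EIc_eq, div_neg]; ring

theorem EI_neg (a : Fin 2 → ℂ) (b : Bs) (x y : ℂ) : EI a b x (-y) = -EI a b x y := by
  unfold EI; rw [EIc_neg, EIc_neg]; simp; ring

/-- In the coordinate `w = 1 / x`, on the sheet `y = sg x³ Pinf`. -/
theorem EIc_branch {k : ℕ} (hk : k ≤ 1) {b : Bs} {x y sg : ℂ} (hx : x ≠ 0) (hs : sg ^ 2 = 1)
    (hy : y = sg * (x ^ 3 * Pinf b x⁻¹)) :
    EIc k b x y = -sg * (x⁻¹) ^ (2 - k) * Iinf k b x⁻¹ := by
  have hs0 : sg ≠ 0 := by rintro rfl; norm_num at hs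
  have hP := Pinf_ne_zero b x⁻¹
  have h1 : sg⁻¹ = sg := by
    field_simp; exact hs.symm
  rw [EIc_eq, hy]
  have h2 : x ^ (k + 1) * Pinf b x⁻¹ / (sg * (x ^ 3 * Pinf b x⁻¹)) = sg * (x⁻¹) ^ (2 - k) := by
    rw [← h1]
    generalize Pinf b x⁻¹ = P at hP
    interval_cases k <;> simp only [Nat.sub_zero, Nat.reduceSub, zero_add, Nat.reduceAdd] <;>
      field_simp <;> exact hs
  rw [h2]; ring

/-- The sign of a point near infinity. -/
theorem exists_sign {b : Bs} {x y : ℂ} (hx : x ≠ 0) (h : (b, x⁻¹) ∈ DI)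
    (hy : y ^ 2 = ∏ i, (x - b i)) :
    y / (x ^ 3 * Pinf b x⁻¹) = 1 ∨ y / (x ^ 3 * Pinf b x⁻¹) = -1 := by
  have hP : x ^ 3 * Pinf b x⁻¹ ≠ 0 := mul_ne_zero (pow_ne_zero _ hx) (Pinf_ne_zero _ _)
  rw [← sq_eq_one_iff, div_pow, cube_Pinf_sq hx h, hy, div_self]
  rw [← cube_Pinf_sq hx h]
  exact pow_ne_zero _ hP

theorem norm_EIc_le {k : ℕ} (hk : k ≤ 1) {b : Bs} {x y : ℂ} (hx : x ≠ 0) (h : (b, x⁻¹) ∈ DI)
    (hy : y ^ 2 = ∏ i, (x - b i)) : ‖EIc k b x y‖ ≤ 8 / ‖x‖ ^ (2 - k) := by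
  have hP : x ^ 3 * Pinf b x⁻¹ ≠ 0 := mul_ne_zero (pow_ne_zero _ hx) (Pinf_ne_zero _ _)
  have h1 := exists_sign hx h hy
  set sg := y / (x ^ 3 * Pinf b x⁻¹) with hsg
  have h2 : ‖sg‖ = 1 := by rcases h1 with h1 | h1 <;> simp [h1]
  have h3 : y = sg * (x ^ 3 * Pinf b x⁻¹) := by rw [hsg, div_mul_cancel₀ _ hP]
  rw [EIc_branch hk hx (sq_eq_one_iff.2 h1) h3, norm_mul, norm_mul, norm_neg, h2, one_mul,
    norm_pow, norm_inv, inv_pow, div_eq_inv_mul]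
  exact mul_le_mul_of_nonneg_left (norm_Iinf_le k h) (by positivity)

/-- `EIc` is holomorphic in `(b, x, y)`. -/
theorem contDiffAt_EIc (k : ℕ) {b : Bs} {x y : ℂ} (hx : x ≠ 0) (h : (b, x⁻¹) ∈ DI) (hy : y ≠ 0) :
    ContDiffAt ℂ ∞ (fun q : (Bs × ℂ) × ℂ => EIc k q.1.1 q.1.2 q.2) ((b, x), y) := by
  simp only [EIc_eq]
  have h0 : ContDiffAt ℂ ∞ (fun q : (Bs × ℂ) × ℂ => q.1.2⁻¹) ((b, x), y) :=
    ContDiffAt.inv (by fun_prop) hx
  have h1 : ContDiffAt ℂ ∞ (fun q : (Bs × ℂ) × ℂ => ((q.1.1, q.1.2⁻¹) : Bs × ℂ)) ((b, x), y) :=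
    ContDiffAt.prodMk (by fun_prop) h0
  have h2 : ContDiffAt ℂ ∞ (fun q : (Bs × ℂ) × ℂ => Pinf q.1.1 q.1.2⁻¹) ((b, x), y) :=
    ContDiffAt.comp (g := fun p : Bs × ℂ => Pinf p.1 p.2)
      (f := fun q : (Bs × ℂ) × ℂ => ((q.1.1, q.1.2⁻¹) : Bs × ℂ)) ((b, x), y) (contDiffAt_Pinf h) h1
  have h3 : ContDiffAt ℂ ∞ (fun q : (Bs × ℂ) × ℂ => Iinf k q.1.1 q.1.2⁻¹) ((b, x), y) :=
    ContDiffAt.comp (g := fun p : Bs × ℂ => Iinf k p.1 p.2)
      (f := fun q : (Bs × ℂ) × ℂ => ((q.1.1, q.1.2⁻¹) : Bs × ℂ)) ((b, x), y)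
      ((analyticOnNhd_Iinf k _ h).contDiffAt) h1
  refine ContDiffAt.mul (ContDiffAt.neg (ContDiffAt.div (ContDiffAt.mul ?_ h2) ?_ hy)) h3
  · fun_prop
  · fun_prop

/-! ### the derivative along a branch -/

theorem exists_radius {b : Bs} {w : ℂ} (h : (b, w) ∈ DI) :
    ∃ t1, ‖w‖ < t1 ∧ ∀ s : ℂ, ‖s‖ < t1 → (b, s) ∈ DI := by
  have ho : IsOpen {t : ℝ | ∀ i : Fin 6, 2 * t * ‖b i‖ < 1} := by
    simp only [Set.ofPred_forall]
    exact isOpen_iInter_of_finite fun i => isOpen_lt (by fun_prop) (by fun_prop)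
  have hw : ‖w‖ ∈ {t : ℝ | ∀ i : Fin 6, 2 * t * ‖b i‖ < 1} := fun i => by
    have := h i
    simpa [norm_mul, mul_assoc] using this
  obtain ⟨ε, hε, hb⟩ := Metric.isOpen_iff.1 ho _ hw
  have h1 : ‖w‖ + ε / 2 ∈ {t : ℝ | ∀ i : Fin 6, 2 * t * ‖b i‖ < 1} := by
    refine hb ?_
    rw [Metric.mem_ball, Real.dist_eq, add_sub_cancel_left, abs_of_pos (by linarith)]
    linarith
  refine ⟨‖w‖ + ε / 2, by linarith, fun s hs i => ?_⟩
  have h2 := h1 i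
  simp only [norm_mul]
  nlinarith [norm_nonneg (b i)]

/-- The holomorphic function `∫₀^w s^(1-k) / Pinf b s ds`. -/
theorem hasDerivAt_prim {k : ℕ} (hk : k ≤ 1) {b : Bs} {w : ℂ} (h : (b, w) ∈ DI) :
    HasDerivAt (fun w => w ^ (2 - k) * Iinf k b w) (w ^ (1 - k) / Pinf b w) w := by
  obtain ⟨t1, ht1, hD⟩ := exists_radius h
  set g : ℂ → ℂ := fun s => s ^ (1 - k) / Pinf b s with hg
  have hd : DifferentiableOn ℂ g (Metric.ball 0 t1) := by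
    intro s hs
    rw [mem_ball_zero_iff] at hs
    have h1 : DifferentiableAt ℂ (fun s : ℂ => Pinf b s) s :=
      DifferentiableAt.comp (g := fun p : Bs × ℂ => Pinf p.1 p.2) (f := fun s : ℂ => ((b, s) : Bs × ℂ))
        s (differentiableAt_Pinf (hD s hs)) (by fun_prop)
    exact (DifferentiableAt.div (by fun_prop) h1 (Pinf_ne_zero _ _)).differentiableWithinAt
  obtain ⟨G0, hG0⟩ := hd.isExactOn_ball
  have hval : ∀ s : ℂ, ‖s‖ < t1 → s ^ (2 - k) * Iinf k b s = G0 s - G0 0 := by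
    intro s hs
    have hseg : ∀ t ∈ Icc (0 : ℝ) 1, (t : ℂ) * s ∈ Metric.ball (0 : ℂ) t1 := by
      intro t ht
      rw [mem_ball_zero_iff, norm_mul]
      have := mul_le_mul_of_nonneg_right (norm_ofReal_le ht) (norm_nonneg s)
      linarith
    have h1 : ∀ t ∈ uIcc (0 : ℝ) 1,
        HasDerivAt (fun t : ℝ => G0 ((t : ℂ) * s)) (g ((t : ℂ) * s) * s) t := by
      intro t ht
      rw [Set.uIcc_of_le zero_le_one] at ht
      have h2 := hG0 ((t : ℂ) * s) (hseg t ht)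
      have h3 : HasDerivAt (fun z : ℂ => z * s) s (t : ℂ) := by
        simpa using (hasDerivAt_id (t : ℂ)).mul_const s
      exact (HasDerivAt.comp (h₂ := G0) (h := fun z : ℂ => z * s) (t : ℂ) h2 h3).comp_ofReal
    have h4 : IntervalIntegrable (fun t : ℝ => g ((t : ℂ) * s) * s) volume 0 1 := by
      refine ContinuousOn.intervalIntegrable ?_
      rw [Set.uIcc_of_le zero_le_one]
      refine ContinuousOn.mul ?_ continuousOn_const
      exact hd.continuousOn.comp (f := fun t : ℝ => (t : ℂ) * s) (by fun_prop) hseg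
    have h6 := intervalIntegral.integral_eq_sub_of_hasDerivAt h1 h4
    simp only [Complex.ofReal_one, one_mul, Complex.ofReal_zero, zero_mul] at h6
    rw [← h6, Iinf, ← intervalIntegral.integral_const_mul]
    refine intervalIntegral.integral_congr fun t _ => ?_
    simp only [hg]
    interval_cases k
    · simp only [Nat.sub_zero, pow_one]; ring
    · simp only [Nat.reduceSub, pow_one, Nat.sub_self, pow_zero]; ring
  have h7 : HasDerivAt (fun s => G0 s - G0 0) (g w) w :=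
    (hG0 w (by rw [mem_ball_zero_iff]; exact ht1)).sub_const _
  refine h7.congr_of_eventuallyEq ?_
  have h8 : ∀ᶠ s in 𝓝 w, ‖s‖ < t1 := continuous_norm.continuousAt.eventually_lt
    continuousAt_const ht1
  filter_upwards [h8] with s hs using hval s hs

/-- **the `x`-derivative of `EIc` along a branch of `y`** -/
theorem hasDerivAt_EIc {k : ℕ} (hk : k ≤ 1) {b : Bs} {x0 : ℂ} (hx0 : x0 ≠ 0)
    (h : (b, x0⁻¹) ∈ DI) {Y : ℂ → ℂ} (hY : ContinuousAt Y x0)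
    (hY2 : ∀ᶠ x in 𝓝 x0, Y x ^ 2 = ∏ i, (x - b i)) :
    HasDerivAt (fun x => EIc k b x (Y x)) (x0 ^ k / Y x0) x0 := by
  have hinv : ContinuousAt (fun x : ℂ => ((b, x⁻¹) : Bs × ℂ)) x0 :=
    ContinuousAt.prodMk continuousAt_const (continuousAt_inv₀ hx0)
  have hev : ∀ᶠ x in 𝓝 x0, (b, x⁻¹) ∈ DI := hinv.eventually_mem (isOpen_DI.mem_nhds h)
  have hne : ∀ᶠ x in 𝓝 x0, x ≠ 0 := isOpen_ne.eventually_mem hx0
  set sg : ℂ → ℂ := fun x => Y x / (x ^ 3 * Pinf b x⁻¹) with hsg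
  have hP0 : x0 ^ 3 * Pinf b x0⁻¹ ≠ 0 := mul_ne_zero (pow_ne_zero _ hx0) (Pinf_ne_zero _ _)
  have hcP : ContinuousAt (fun x : ℂ => Pinf b x⁻¹) x0 :=
    ContinuousAt.comp (g := fun p : Bs × ℂ => Pinf p.1 p.2) (f := fun x : ℂ => ((b, x⁻¹) : Bs × ℂ))
      (x := x0) (differentiableAt_Pinf h).continuousAt hinv
  have hcs : ContinuousAt sg x0 := by
    refine ContinuousAt.div₀ hY ?_ hP0
    exact (continuousAt_id.pow 3).mul hcP
  have hs1 : ∀ᶠ x in 𝓝 x0, sg x = 1 ∨ sg x = -1 := by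
    filter_upwards [hev, hne, hY2] with x h1 h2 h3 using exists_sign h2 h1 h3
  have hs2 : ∀ᶠ x in 𝓝 x0, sg x = sg x0 := by
    have h1 : ∀ᶠ x in 𝓝 x0, dist (sg x) (sg x0) < 1 := by
      have := hcs.tendsto.eventually (Metric.ball_mem_nhds (sg x0) one_pos)
      filter_upwards [this] with x hx using hx
    have h0 := hs1.self_of_nhds
    filter_upwards [h1, hs1] with x h1 h2
    rcases h0 with h0 | h0 <;> rcases h2 with h2 | h2 <;> rw [h0, h2, dist_eq_norm] at h1 <;>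
      first | (rw [h0, h2]; done) | (exfalso; norm_num at h1)
  have hsq : sg x0 ^ 2 = 1 := sq_eq_one_iff.2 hs1.self_of_nhds
  have h1 : HasDerivAt (fun x => -sg x0 * ((x⁻¹) ^ (2 - k) * Iinf k b x⁻¹))
      (-sg x0 * ((x0⁻¹) ^ (1 - k) / Pinf b x0⁻¹ * (-(x0 ^ 2)⁻¹))) x0 :=
    (HasDerivAt.comp (h₂ := fun w => w ^ (2 - k) * Iinf k b w) x0 (hasDerivAt_prim hk h)
      (hasDerivAt_inv hx0)).const_mul _
  have h2 : (fun x => EIc k b x (Y x)) =ᶠ[𝓝 x0]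
      fun x => -sg x0 * ((x⁻¹) ^ (2 - k) * Iinf k b x⁻¹) := by
    filter_upwards [hs2, hne, hs1] with x hx1 hx2 hx3
    have hP : x ^ 3 * Pinf b x⁻¹ ≠ 0 := mul_ne_zero (pow_ne_zero _ hx2) (Pinf_ne_zero _ _)
    rw [EIc_branch hk hx2 (sq_eq_one_iff.2 hx3) (by rw [hsg, div_mul_cancel₀ _ hP]), hx1]
    ring
  refine (h1.congr_of_eventuallyEq h2).congr_deriv ?_
  have h3 : Y x0 = sg x0 * (x0 ^ 3 * Pinf b x0⁻¹) := by rw [hsg, div_mul_cancel₀ _ hP0]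
  have h4 : sg x0 ≠ 0 := by intro h0; rw [h0] at hsq; norm_num at hsq
  have h5 : (sg x0)⁻¹ = sg x0 := by field_simp; exact hsq.symm
  rw [h3]
  have h6 := Pinf_ne_zero b x0⁻¹
  generalize Pinf b x0⁻¹ = P at h6
  generalize sg x0 = σ at h4 h5
  have h7 : x0 ^ k / (σ * (x0 ^ 3 * P)) = σ⁻¹ * (x0 ^ k / (x0 ^ 3 * P)) := by field_simp
  rw [h7, h5]
  interval_cases k <;> simp only [Nat.sub_zero, Nat.sub_self, pow_one, pow_zero] <;> field_simp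

end

end Vale.Agent.P273.H604
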