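import Vale.Agent.P273.H604.CutForm

/-!
# P273, crew ASY0/ASY1, item (c): exact formula for `etaP` and bounds of the cut-offs
-/

namespace Vale.Agent.P273.H604

open scoped ContDiff Topology RealInnerProductSpace
open Set Filter MeasureTheory Finset
open H214

noncomputable section

variable {H : Type*} [NormedAddCommGroup H] [NormedSpace ℝ H]
variable {O : Set Bs} {η : Bs → ℂ → ℂ → (Bs × ℂ →L[ℝ] H)} {A : Bs → (ℂ × ℂ →L[ℝ] H)}

/-! ### (F2) the exact formula -/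

theorem fderiv_eq_zero_of_eventually {E F : Type*} [NormedAddCommGroup E] [NormedSpace ℝ E]
    [NormedAddCommGroup F] [NormedSpace ℝ F] {f : E → F} {p : E} (h : ∀ᶠ q in 𝓝 p, f q = 0) :
    fderiv ℝ f p = 0 := by
  have h1 : f =ᶠ[𝓝 p] fun _ => (0 : F) := h
  rw [h1.fderiv_eq]
  simp

/-- The cut-off at one root. -/
theorem fderiv_cutW (hF : FlatOn O η A) (j : Fin 6) {b : Bs} (hb : b ∈ O) {x y : ℂ}
    (hff : ff (b, x) ≠ 0) (hy : y ^ 2 = ff (b, x)) :
    fderiv ℝ (fun q : Bs × ℂ => chiW q.1 j q.2 • A q.1 (EWv q.1 j q.2 (Ybr (b, x) y q))) (b, x) =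
      chiW b j x • η b x y +
        (fderiv ℝ (fun q : Bs × ℂ => chiW q.1 j q.2) (b, x)).smulRight (A b (EWv b j x y)) := by
  have hC := hF.sub hb
  have hY : IsBr (Ybr (b, x) y) (b, x) := isBr_Ybr hff hy
  have hx : x ≠ b j := (ff_ne_zero_iff.1 hff) j
  by_cases h : 4 * ‖x - b j‖ ^ 2 < hh b j
  · have hp : (b, x) ∈ Dj j := mem_Dj_of_hh hC h
    have h1 : DifferentiableAt ℝ (gW A j (Ybr (b, x) y)) (b, x) :=
      (contDiffAt_gW hp (hF.smoothA _ hb) hY).differentiableAt (by simp)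
    have h2 : DifferentiableAt ℝ (fun q : Bs × ℂ => chiW q.1 j q.2) (b, x) :=
      (contDiffAt_chiW hC j x).differentiableAt (by simp)
    have h3 := fderiv_fun_smul h2 h1
    unfold gW at h3
    rw [h3, eta_eq_dW hF hb h hx hy]
    simp only [Ybr_self hff]
    rfl
  · have h1 : hh b j < 32 * ‖x - b j‖ ^ 2 := by
      have := hh_pos hC j
      push Not at h
      nlinarith
    have h2 := chiW_eventually_zero (p := (b, x)) hC h1
    have h3 : chiW b j x = 0 := h2.self_of_nhds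
    rw [fderiv_eq_zero_of_eventually (f := fun q : Bs × ℂ => chiW q.1 j q.2) h2, h3,
      fderiv_eq_zero_of_eventually]
    · simp
    · filter_upwards [h2] with q hq
      rw [hq, zero_smul]

/-- The cut-off at infinity. -/
theorem fderiv_cutI (hF : FlatOn O η A) {b : Bs} (hb : b ∈ O) {x y : ℂ}
    (hff : ff (b, x) ≠ 0) (hy : y ^ 2 = ff (b, x)) :
    fderiv ℝ (fun q : Bs × ℂ => chiI q.1 q.2 • A q.1 (EIv q.1 q.2 (Ybr (b, x) y q))) (b, x) =
      chiI b x • η b x y -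
        (chiI b x * sgI b x y) • (Cinf η A b).comp (ContinuousLinearMap.fst ℝ Bs ℂ) +
        (fderiv ℝ (fun q : Bs × ℂ => chiI q.1 q.2) (b, x)).smulRight (A b (EIv b x y)) := by
  have hY : IsBr (Ybr (b, x) y) (b, x) := isBr_Ybr hff hy
  by_cases h : Rr b ≤ ‖x‖
  · have hx0 : x ≠ 0 := by
      intro h0
      rw [h0, norm_zero] at h
      linarith [Rr_pos b]
    have hD : (b, x⁻¹) ∈ DI := mem_DI_inv (two_mul_norm_lt h)
    have h1 : DifferentiableAt ℝ (eI A (Ybr (b, x) y)) (b, x) := by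
      have h2 : ContDiffAt ℝ ∞ (eI A (Ybr (b, x) y)) (b, x) :=
        (contDiffAt_A (hF.smoothA _ hb)).clm_apply
          (H214.contDiffAt_EIv (p := (b, x)) hx0 hD hY.smooth hY.ne_zero)
      exact h2.differentiableAt (by simp)
    have h2 : DifferentiableAt ℝ (fun q : Bs × ℂ => chiI q.1 q.2) (b, x) :=
      contDiff_chiI.contDiffAt.differentiableAt (by simp)
    have h3 := fderiv_fun_smul h2 h1
    unfold eI at h3
    rw [h3]
    simp only [Ybr_self hff]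
    congr 1
    rcases eq_or_lt_of_le h with h4 | h4
    · have h5 : chiI b x = 0 := chiI_eq_zero h4.symm.le
      rw [h5]
      simp
    · rw [eta_eq_dI hF hb h4 hy, smul_add, mul_smul]
      unfold dI eI
      abel
  · push Not at h
    have h2 := chiI_eventually_zero (p := (b, x)) h
    have h3 : chiI b x = 0 := h2.self_of_nhds
    rw [fderiv_eq_zero_of_eventually (f := fun q : Bs × ℂ => chiI q.1 q.2) h2, h3,
      fderiv_eq_zero_of_eventually]
    · simp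
    · filter_upwards [h2] with q hq
      rw [hq, zero_smul]

/-- **(F2)** The exact formula for the cut-off form. -/
theorem etaP_formula (hF : FlatOn O η A) {b : Bs} (hb : b ∈ O) {x y : ℂ}
    (hff : ff (b, x) ≠ 0) (hy : y ^ 2 = ff (b, x)) :
    etaP η A b x y = (1 - (∑ j, chiW b j x) - chiI b x) • η b x y +
      (chiI b x * sgI b x y) • (Cinf η A b).comp (ContinuousLinearMap.fst ℝ Bs ℂ) -
      (∑ j, (fderiv ℝ (fun q : Bs × ℂ => chiW q.1 j q.2) (b, x)).smulRight (A b (EWv b j x y))) -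
      (fderiv ℝ (fun q : Bs × ℂ => chiI q.1 q.2) (b, x)).smulRight (A b (EIv b x y)) := by
  have hC := hF.sub hb
  have hA := hF.smoothA _ hb
  have hY : IsBr (Ybr (b, x) y) (b, x) := isBr_Ybr hff hy
  unfold etaP dcut Ecut
  have h1 : ∀ j ∈ (univ : Finset (Fin 6)), DifferentiableAt ℝ (fun q : Bs × ℂ =>
      chiW q.1 j q.2 • A q.1 (EWv q.1 j q.2 (Ybr (b, x) y q))) (b, x) := fun j _ =>
    (contDiffAt_cutW j (p := (b, x)) hC hA hY).differentiableAt (by simp)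
  have h2 : DifferentiableAt ℝ (fun q : Bs × ℂ =>
      chiI q.1 q.2 • A q.1 (EIv q.1 q.2 (Ybr (b, x) y q))) (b, x) :=
    (contDiffAt_cutI (p := (b, x)) hA hY).differentiableAt (by simp)
  rw [fderiv_fun_add (DifferentiableAt.fun_sum h1) h2, fderiv_fun_sum h1, fderiv_cutI hF hb hff hy]
  have h3 : ∀ j ∈ (univ : Finset (Fin 6)), fderiv ℝ (fun q : Bs × ℂ =>
      chiW q.1 j q.2 • A q.1 (EWv q.1 j q.2 (Ybr (b, x) y q))) (b, x) = chiW b j x • η b x y +
        (fderiv ℝ (fun q : Bs × ℂ => chiW q.1 j q.2) (b, x)).smulRight (A b (EWv b j x y)) :=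
    fun j _ => fderiv_cutW hF j hb hff hy
  rw [Finset.sum_congr rfl h3, Finset.sum_add_distrib, ← Finset.sum_smul]
  generalize (∑ j, (fderiv ℝ (fun q : Bs × ℂ => chiW q.1 j q.2) (b, x)).smulRight
    (A b (EWv b j x y))) = S1
  generalize (fderiv ℝ (fun q : Bs × ℂ => chiI q.1 q.2) (b, x)).smulRight (A b (EIv b x y)) = S2
  generalize (Cinf η A b).comp (ContinuousLinearMap.fst ℝ Bs ℂ) = S3
  refine ContinuousLinearMap.ext fun w => ?_
  simp only [_root_.sub_apply, _root_.add_apply, _root_.smul_apply]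
  module

/-! ### (F3) the cut-off functions -/

theorem exists_bound_st : ∃ K : ℝ, 0 < K ∧ ∀ s, |deriv Real.smoothTransition s| ≤ K := by
  have hc : Continuous (deriv Real.smoothTransition) :=
    (Real.smoothTransition.contDiff (n := 1)).continuous_deriv (by simp)
  obtain ⟨K, hK⟩ := (isCompact_Icc (a := (-1 : ℝ)) (b := 2)).exists_bound_of_continuousOn
    hc.continuousOn
  refine ⟨max K 1, by positivity, fun s => ?_⟩
  by_cases h : s ∈ Icc (-1 : ℝ) 2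
  · exact (hK s h).trans (le_max_left _ _)
  · have h1 : deriv Real.smoothTransition s = 0 := by
      rw [Set.mem_Icc, not_and_or, not_le, not_le] at h
      rcases h with h | h
      · have h2 : Real.smoothTransition =ᶠ[𝓝 s] fun _ => (0 : ℝ) := by
          filter_upwards [Iio_mem_nhds (show s < 0 by linarith)] with r hr
          exact Real.smoothTransition.zero_of_nonpos (le_of_lt hr)
        rw [h2.deriv_eq]; simp
      · have h2 : Real.smoothTransition =ᶠ[𝓝 s] fun _ => (1 : ℝ) := by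
          filter_upwards [Ioi_mem_nhds (show 1 < s by linarith)] with r hr
          exact Real.smoothTransition.one_of_one_le (le_of_lt hr)
        rw [h2.deriv_eq]; simp
    rw [h1, abs_zero]
    positivity

/-- A bound of the derivative of `smoothTransition`. -/
def Kst : ℝ := exists_bound_st.choose

theorem Kst_pos : 0 < Kst := exists_bound_st.choose_spec.1

theorem abs_deriv_st_le (s : ℝ) : |deriv Real.smoothTransition s| ≤ Kst :=
  exists_bound_st.choose_spec.2 s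

theorem deriv_st_eq_zero {s : ℝ} (h : s ≤ 0 ∨ 1 ≤ s) : deriv Real.smoothTransition s = 0 := by
  have hd : DifferentiableAt ℝ Real.smoothTransition s :=
    ((Real.smoothTransition.contDiff (n := 1)).differentiable (by simp)) s
  rcases h with h | h
  · have h1 : IsLocalMin Real.smoothTransition s := by
      refine Filter.Eventually.of_forall fun r => ?_
      rw [Real.smoothTransition.zero_of_nonpos h]
      exact Real.smoothTransition.nonneg r
    exact h1.deriv_eq_zero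
  · have h1 : IsLocalMax Real.smoothTransition s := by
      refine Filter.Eventually.of_forall fun r => ?_
      rw [Real.smoothTransition.one_of_one_le h]
      exact Real.smoothTransition.le_one r
    exact h1.deriv_eq_zero

/-- Derivative in a direction of `smoothTransition ∘ f`. -/
theorem fderiv_st_comp {E : Type*} [NormedAddCommGroup E] [NormedSpace ℝ E] {f : E → ℝ} {p : E}
    (hf : DifferentiableAt ℝ f p) (w : E) :
    fderiv ℝ (fun q => Real.smoothTransition (f q)) p w =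
      deriv Real.smoothTransition (f p) * fderiv ℝ f p w := by
  have hd : DifferentiableAt ℝ Real.smoothTransition (f p) :=
    ((Real.smoothTransition.contDiff (n := 1)).differentiable (by simp)) _
  have h1 := (hd.hasDerivAt.comp_hasFDerivAt p hf.hasFDerivAt).fderiv
  have h2 : fderiv ℝ (Real.smoothTransition ∘ f) p w = _ := congrArg (fun L => L w) h1
  exact h2

/-- Derivative of `‖f‖ ^ 2` along a curve. -/
theorem hasDerivAt_normSq {f : ℝ → ℂ} {f' : ℂ} {s : ℝ} (hf : HasDerivAt f f' s) :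
    HasDerivAt (fun r => ‖f r‖ ^ 2) (2 * ⟪f s, f'⟫) s := hf.norm_sq

/-- Derivative in a direction as the derivative along a line. -/
theorem fderiv_line {E : Type*} [NormedAddCommGroup E] [NormedSpace ℝ E] {f : E → ℝ} {p w : E}
    (hf : DifferentiableAt ℝ f p) {d : ℝ} (h : HasDerivAt (fun s : ℝ => f (p + s • w)) d 0) :
    fderiv ℝ f p w = d := by
  have h1 : HasDerivAt (fun s : ℝ => p + s • w) w 0 := by
    simpa using ((hasDerivAt_id (0 : ℝ)).smul_const w).const_add p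
  have h2 : HasFDerivAt f (fderiv ℝ f p) (p + (0 : ℝ) • w) := by simpa using hf.hasFDerivAt
  have h3 := h2.comp_hasDerivAt (0 : ℝ) h1
  exact h3.unique h

/-- The argument of the cut-off at a root. -/
def fW (j : Fin 6) (q : Bs × ℂ) : ℝ := 2 - 64 * ‖q.2 - q.1 j‖ ^ 2 / hh q.1 j

theorem chiW_eq (j : Fin 6) (q : Bs × ℂ) : chiW q.1 j q.2 = Real.smoothTransition (fW j q) := rfl

theorem fW_eq (j : Fin 6) (q : Bs × ℂ) : fW j q =
    2 - 64 * (‖q.2 - q.1 j‖ ^ 2 * ∑ i ∈ univ.erase j, (‖q.1 i - q.1 j‖ ^ 2)⁻¹) := by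
  unfold fW hh
  rw [div_inv_eq_mul]
  ring

theorem differentiableAt_fW {b : Bs} (hb : b ∈ Cf) (j : Fin 6) (x : ℂ) :
    DifferentiableAt ℝ (fW j) (b, x) := by
  unfold fW
  have h1 : DifferentiableAt ℝ (fun p : Bs × ℂ => hh p.1 j) (b, x) :=
    (ContDiffAt.comp (g := fun b : Bs => hh b j) (f := Prod.fst) (b, x) (contDiffAt_hh hb j)
      contDiffAt_fst).differentiableAt (by simp)
  have h2 : DifferentiableAt ℝ (fun q : Bs × ℂ => ‖q.2 - q.1 j‖ ^ 2) (b, x) := by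
    have : ContDiff ℝ ∞ (fun q : Bs × ℂ => q.2 - q.1 j) := by fun_prop
    exact (this.norm_sq ℝ).contDiffAt.differentiableAt (by simp)
  have h3 : hh b j ≠ 0 := (hh_pos hb j).ne'
  have h4 : DifferentiableAt ℝ (fun q : Bs × ℂ => (hh q.1 j)⁻¹) (b, x) := h1.inv h3
  simp only [div_eq_mul_inv]
  exact ((h2.const_mul 64).mul h4).const_sub 2

/-- The argument of the cut-off in log directions. -/
theorem abs_fderiv_fW_le {b : Bs} (hb : b ∈ Cf) (j : Fin 6) {x : ℂ} {β : Bs} {ζ : ℂ} {K : ℝ}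
    (_hK : 0 ≤ K) (h1 : ∀ i, i ≠ j → ‖β i - β j‖ ≤ K * ‖b i - b j‖)
    (h2 : ‖ζ - β j‖ ≤ K * ‖x - b j‖) :
    |fderiv ℝ (fW j) (b, x) (β, ζ)| ≤ 4 * K * (64 * ‖x - b j‖ ^ 2 / hh b j) := by
  have hd := differentiableAt_fW hb j x
  set u : Fin 6 → ℂ := fun i => b i - b j with hu
  set v : Fin 6 → ℂ := fun i => β i - β j with hv
  set t : ℂ := x - b j with ht
  set t' : ℂ := ζ - β j with ht'
  set S : ℝ := ∑ i ∈ univ.erase j, (‖u i‖ ^ 2)⁻¹ with hS
  have hline : ∀ (c c' : ℂ), HasDerivAt (fun s : ℝ => ‖c + s * c'‖ ^ 2) (2 * ⟪c, c'⟫) 0 := by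
    intro c c'
    have h0 : HasDerivAt (fun s : ℝ => c + (s : ℂ) * c') c' 0 := by
      have h5 : HasDerivAt (fun s : ℝ => (s : ℂ) * c') (1 * c') 0 :=
        (Complex.ofRealCLM.hasDerivAt (x := (0 : ℝ))).mul_const c'
      simpa using h5.const_add c
    have h6 := hasDerivAt_normSq h0
    simpa using h6
  have hune : ∀ i ∈ univ.erase j, ‖u i‖ ^ 2 ≠ 0 := by
    intro i hi
    have h5 : u i ≠ 0 := sub_ne_zero.2 (Function.Injective.ne hb (Finset.mem_erase.1 hi).1)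
    positivity
  have hinv : ∀ i ∈ univ.erase j, HasDerivAt (fun s : ℝ => (‖u i + s * v i‖ ^ 2)⁻¹)
      (-(2 * ⟪u i, v i⟫) / (‖u i‖ ^ 2) ^ 2) 0 := by
    intro i hi
    have h5 := (hline (u i) (v i)).fun_inv (by simpa using hune i hi)
    simpa using h5
  have hsum : HasDerivAt (fun s : ℝ => ∑ i ∈ univ.erase j, (‖u i + s * v i‖ ^ 2)⁻¹)
      (∑ i ∈ univ.erase j, -(2 * ⟪u i, v i⟫) / (‖u i‖ ^ 2) ^ 2) 0 := HasDerivAt.fun_sum hinv
  set S' : ℝ := ∑ i ∈ univ.erase j, -(2 * ⟪u i, v i⟫) / (‖u i‖ ^ 2) ^ 2 with hS'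
  have hprod := (hline t t').mul hsum
  have hder : HasDerivAt (fun s : ℝ => fW j ((b, x) + s • (β, ζ)))
      (-(64 * (2 * ⟪t, t'⟫ * S + ‖t‖ ^ 2 * S'))) 0 := by
    have h5 : (fun s : ℝ => fW j ((b, x) + s • (β, ζ))) = fun s : ℝ =>
        2 - 64 * (‖t + s * t'‖ ^ 2 * ∑ i ∈ univ.erase j, (‖u i + s * v i‖ ^ 2)⁻¹) := by
      funext s
      rw [fW_eq]
      congr 3
      · congr 2
        simp only [Prod.fst_add, Prod.snd_add, Prod.smul_fst, Prod.smul_snd, Pi.add_apply,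
          Pi.smul_apply, Complex.real_smul, ht, ht']
        ring
      · refine Finset.sum_congr rfl fun i _ => ?_
        congr 3
        simp only [Prod.fst_add, Prod.smul_fst, Pi.add_apply, Pi.smul_apply, Complex.real_smul,
          hu, hv]
        ring
    rw [h5]
    have h6 := (hprod.const_mul 64).const_sub 2
    refine h6.congr_deriv ?_
    simp [hS]
  rw [fderiv_line hd hder, abs_neg, abs_mul]
  have hS0 : 0 ≤ S := Finset.sum_nonneg fun i _ => by positivity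
  have e1 : |2 * ⟪t, t'⟫ * S| ≤ 2 * K * (‖t‖ ^ 2 * S) := by
    rw [abs_mul, abs_mul, abs_of_nonneg hS0, abs_of_pos (by norm_num : (0 : ℝ) < 2)]
    have h5 : |⟪t, t'⟫| ≤ K * ‖t‖ ^ 2 := by
      calc |⟪t, t'⟫| ≤ ‖t‖ * ‖t'‖ := abs_real_inner_le_norm _ _
        _ ≤ ‖t‖ * (K * ‖t‖) := by gcongr
        _ = K * ‖t‖ ^ 2 := by ring
    calc 2 * |⟪t, t'⟫| * S ≤ 2 * (K * ‖t‖ ^ 2) * S := by gcongr
      _ = _ := by ring
  have e2 : |S'| ≤ 2 * K * S := by
    rw [hS', hS, Finset.mul_sum]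
    refine (Finset.abs_sum_le_sum_abs _ _).trans (Finset.sum_le_sum fun i hi => ?_)
    have h5 : |⟪u i, v i⟫| ≤ K * ‖u i‖ ^ 2 := by
      calc |⟪u i, v i⟫| ≤ ‖u i‖ * ‖v i‖ := abs_real_inner_le_norm _ _
        _ ≤ ‖u i‖ * (K * ‖u i‖) := by
            gcongr
            exact h1 i (Finset.mem_erase.1 hi).1
        _ = K * ‖u i‖ ^ 2 := by ring
    have h6 : 0 < ‖u i‖ ^ 2 := lt_of_le_of_ne (by positivity) (Ne.symm (hune i hi))
    rw [abs_div, abs_neg, abs_mul, abs_of_pos (by norm_num : (0 : ℝ) < 2),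
      abs_of_pos (pow_pos h6 2), div_le_iff₀ (pow_pos h6 2)]
    calc 2 * |⟪u i, v i⟫| ≤ 2 * (K * ‖u i‖ ^ 2) := by gcongr
      _ = 2 * K * (‖u i‖ ^ 2)⁻¹ * (‖u i‖ ^ 2) ^ 2 := by field_simp
  have e3 : |‖t‖ ^ 2 * S'| ≤ 2 * K * (‖t‖ ^ 2 * S) := by
    rw [abs_mul, abs_of_nonneg (by positivity : (0 : ℝ) ≤ ‖t‖ ^ 2)]
    calc ‖t‖ ^ 2 * |S'| ≤ ‖t‖ ^ 2 * (2 * K * S) := by gcongr
      _ = _ := by ring
  have e4 : 64 * ‖t‖ ^ 2 / hh b j = 64 * (‖t‖ ^ 2 * S) := by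
    unfold hh
    rw [div_inv_eq_mul]
    ring
  rw [e4, abs_of_pos (by norm_num : (0 : ℝ) < 64)]
  have e5 := abs_add_le (2 * ⟪t, t'⟫ * S) (‖t‖ ^ 2 * S')
  nlinarith

/-- **(F3)** The cut-off at a root in log directions. -/
theorem abs_fderiv_chiW_le {b : Bs} (hb : b ∈ Cf) (j : Fin 6) {x : ℂ} {β : Bs} {ζ : ℂ} {K : ℝ}
    (hK : 0 ≤ K) (h1 : ∀ i, i ≠ j → ‖β i - β j‖ ≤ K * ‖b i - b j‖)
    (h2 : ‖ζ - β j‖ ≤ K * ‖x - b j‖) :
    |fderiv ℝ (fun q : Bs × ℂ => chiW q.1 j q.2) (b, x) (β, ζ)| ≤ 8 * Kst * K := by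
  simp only [chiW_eq]
  rw [fderiv_st_comp (differentiableAt_fW hb j x), abs_mul]
  by_cases h : fW j (b, x) ≤ 0
  · rw [deriv_st_eq_zero (Or.inl h), abs_zero, zero_mul]
    have := Kst_pos
    positivity
  · push Not at h
    have h3 := abs_fderiv_fW_le hb j hK h1 h2
    have h4 : 64 * ‖x - b j‖ ^ 2 / hh b j ≤ 2 := by
      have : fW j (b, x) = 2 - 64 * ‖x - b j‖ ^ 2 / hh b j := rfl
      linarith
    have h5 := abs_deriv_st_le (fW j (b, x))
    have h6 : |fderiv ℝ (fW j) (b, x) (β, ζ)| ≤ 8 * K := by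
      have := mul_le_mul_of_nonneg_left h4 (by positivity : (0 : ℝ) ≤ 4 * K)
      linarith
    calc _ ≤ Kst * (8 * K) := mul_le_mul h5 h6 (abs_nonneg _) Kst_pos.le
      _ = _ := by ring

/-- The cut-off at a root is locally constant outside of the ring. -/
theorem fderiv_chiW_eq_zero {b : Bs} (hb : b ∈ Cf) {j : Fin 6} {x : ℂ}
    (h : 64 * ‖x - b j‖ ^ 2 ≤ hh b j ∨ hh b j ≤ 32 * ‖x - b j‖ ^ 2) :
    fderiv ℝ (fun q : Bs × ℂ => chiW q.1 j q.2) (b, x) = 0 := by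
  refine ContinuousLinearMap.ext fun w => ?_
  simp only [chiW_eq]
  have hp := hh_pos hb j
  rw [fderiv_st_comp (differentiableAt_fW hb j x), deriv_st_eq_zero, zero_mul]
  · rfl
  · rcases h with h | h
    · right
      have : 64 * ‖x - b j‖ ^ 2 / hh b j ≤ 1 := (div_le_one hp).2 h
      unfold fW
      linarith
    · left
      have : 2 ≤ 64 * ‖x - b j‖ ^ 2 / hh b j := (le_div_iff₀ hp).2 (by linarith)
      unfold fW
      linarith

/-- The argument of the cut-off at infinity. -/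
def fI (q : Bs × ℂ) : ℝ := ‖q.2‖ ^ 2 / Rr q.1 ^ 2 - 1

theorem chiI_eq (q : Bs × ℂ) : chiI q.1 q.2 = Real.smoothTransition (fI q) := rfl

theorem differentiableAt_fI (q : Bs × ℂ) : DifferentiableAt ℝ fI q := by
  have h : ContDiff ℝ ∞ fI := by
    unfold fI
    refine ContDiff.sub ?_ contDiff_const
    refine ContDiff.div ?_ ((contDiff_Rr.comp contDiff_fst).pow 2) fun p => ?_
    · exact ContDiff.norm_sq ℝ (by fun_prop)
    · have := Rr_pos p.1
      positivity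
  exact h.contDiffAt.differentiableAt (by simp)

theorem abs_fderiv_fI_le {b : Bs} {x : ℂ} (hx : x ≠ 0) (β : Bs) (ζ : ℂ) :
    |fderiv ℝ fI (b, x) (β, ζ)| ≤ (2 * (‖ζ‖ / ‖x‖) + 6 * ‖β‖) * (‖x‖ ^ 2 / Rr b ^ 2) := by
  have hd := differentiableAt_fI (b, x)
  have hline : ∀ (c c' : ℂ), HasDerivAt (fun s : ℝ => ‖c + s * c'‖ ^ 2) (2 * ⟪c, c'⟫) 0 := by
    intro c c'
    have h0 : HasDerivAt (fun s : ℝ => c + (s : ℂ) * c') c' 0 := by
      have h5 : HasDerivAt (fun s : ℝ => (s : ℂ) * c') (1 * c') 0 :=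
        (Complex.ofRealCLM.hasDerivAt (x := (0 : ℝ))).mul_const c'
      simpa using h5.const_add c
    have h6 := hasDerivAt_normSq h0
    simpa using h6
  set Q : ℝ := 1 + ∑ i, ‖b i‖ ^ 2 with hQ
  have hQ1 : 1 ≤ Q := by
    have : 0 ≤ ∑ i, ‖b i‖ ^ 2 := by positivity
    linarith
  set Q' : ℝ := ∑ i, 2 * ⟪b i, β i⟫ with hQ'
  have hsum : HasDerivAt (fun s : ℝ => 64 * (1 + ∑ i, ‖b i + s * β i‖ ^ 2)) (64 * Q') 0 := by
    have h5 := HasDerivAt.fun_sum (u := univ) (A := fun i (s : ℝ) => ‖b i + s * β i‖ ^ 2)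
      (x := 0) fun i _ => hline (b i) (β i)
    exact (h5.const_add 1).const_mul 64
  have hder : HasDerivAt (fun s : ℝ => fI ((b, x) + s • (β, ζ)))
      ((2 * ⟪x, ζ⟫ * (64 * Q) - ‖x‖ ^ 2 * (64 * Q')) / (64 * Q) ^ 2) 0 := by
    have h5 : (fun s : ℝ => fI ((b, x) + s • (β, ζ))) = fun s : ℝ =>
        ‖x + s * ζ‖ ^ 2 / (64 * (1 + ∑ i, ‖b i + s * β i‖ ^ 2)) - 1 := by
      funext s
      unfold fI
      rw [Rr_sq]
      simp only [Prod.fst_add, Prod.snd_add, Prod.smul_fst, Prod.smul_snd, Pi.add_apply,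
          Pi.smul_apply, Complex.real_smul]
    rw [h5]
    have h7 : 64 * (1 + ∑ i, ‖b i + ((0 : ℝ) : ℂ) * β i‖ ^ 2) ≠ 0 := by
      simp only [Complex.ofReal_zero, zero_mul, add_zero]
      positivity
    have h6 := ((hline x ζ).fun_div hsum h7).sub_const 1
    refine h6.congr_deriv ?_
    simp [hQ]
  rw [fderiv_line hd hder, Rr_sq, ← hQ]
  have hxp : 0 < ‖x‖ := norm_pos_iff.2 hx
  have e1 : |⟪x, ζ⟫| ≤ ‖x‖ * ‖ζ‖ := abs_real_inner_le_norm _ _
  have e2 : |Q'| ≤ 6 * Q * ‖β‖ := by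
    rw [hQ']
    refine (Finset.abs_sum_le_sum_abs _ _).trans ?_
    have h5 : ∀ i ∈ (univ : Finset (Fin 6)), |2 * ⟪b i, β i⟫| ≤ (1 + ‖b i‖ ^ 2) * ‖β‖ := by
      intro i _
      have h6 : |⟪b i, β i⟫| ≤ ‖b i‖ * ‖β i‖ := abs_real_inner_le_norm _ _
      have h7 : ‖β i‖ ≤ ‖β‖ := norm_le_pi_norm β i
      rw [abs_mul, abs_of_pos (by norm_num : (0 : ℝ) < 2)]
      calc 2 * |⟪b i, β i⟫| ≤ 2 * (‖b i‖ * ‖β‖) := by
            have := mul_le_mul_of_nonneg_left h7 (norm_nonneg (b i))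
            linarith
        _ = (2 * ‖b i‖) * ‖β‖ := by ring
        _ ≤ (1 + ‖b i‖ ^ 2) * ‖β‖ := by
            refine mul_le_mul_of_nonneg_right ?_ (norm_nonneg _)
            nlinarith [sq_nonneg (‖b i‖ - 1)]
    refine (Finset.sum_le_sum h5).trans ?_
    rw [← Finset.sum_mul, Finset.sum_add_distrib]
    simp only [Finset.sum_const, Finset.card_univ, Fintype.card_fin, nsmul_eq_mul, mul_one]
    refine mul_le_mul_of_nonneg_right ?_ (norm_nonneg _)
    have : 0 ≤ ∑ i, ‖b i‖ ^ 2 := by positivity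
    push_cast
    rw [hQ]
    linarith
  rw [abs_div, abs_of_pos (by positivity : (0 : ℝ) < (64 * Q) ^ 2), div_le_iff₀ (by positivity)]
  have e3 := abs_sub (2 * ⟪x, ζ⟫ * (64 * Q)) (‖x‖ ^ 2 * (64 * Q'))
  have e4 : |2 * ⟪x, ζ⟫ * (64 * Q)| ≤ 2 * (‖x‖ * ‖ζ‖) * (64 * Q) := by
    rw [abs_mul, abs_mul, abs_of_pos (by norm_num : (0 : ℝ) < 2),
      abs_of_pos (by positivity : (0 : ℝ) < 64 * Q)]
    gcongr
  have e5 : |‖x‖ ^ 2 * (64 * Q')| ≤ ‖x‖ ^ 2 * (64 * (6 * Q * ‖β‖)) := by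
    rw [abs_mul, abs_mul, abs_of_nonneg (by positivity : (0 : ℝ) ≤ ‖x‖ ^ 2),
      abs_of_pos (by norm_num : (0 : ℝ) < 64)]
    gcongr
  have e6 : (2 * (‖ζ‖ / ‖x‖) + 6 * ‖β‖) * (‖x‖ ^ 2 / (64 * Q)) * (64 * Q) ^ 2 =
      2 * (‖x‖ * ‖ζ‖) * (64 * Q) + ‖x‖ ^ 2 * (64 * (6 * Q * ‖β‖)) := by
    field_simp
    try ring
  rw [e6]
  linarith

/-- **(F3)** The cut-off at infinity. -/
theorem abs_fderiv_chiI_le {b : Bs} {x : ℂ} (hx : x ≠ 0) (β : Bs) (ζ : ℂ) :
    |fderiv ℝ (fun q : Bs × ℂ => chiI q.1 q.2) (b, x) (β, ζ)| ≤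
      Kst * (4 * (‖ζ‖ / ‖x‖) + 12 * ‖β‖) := by
  simp only [chiI_eq]
  rw [fderiv_st_comp (differentiableAt_fI (b, x)), abs_mul]
  have hK := Kst_pos
  by_cases h : 1 ≤ fI (b, x)
  · rw [deriv_st_eq_zero (Or.inr h), abs_zero, zero_mul]
    positivity
  · push Not at h
    have h3 := abs_fderiv_fI_le (b := b) hx β ζ
    have h4 : ‖x‖ ^ 2 / Rr b ^ 2 ≤ 2 := by
      have : fI (b, x) = ‖x‖ ^ 2 / Rr b ^ 2 - 1 := rfl
      linarith
    have h5 := abs_deriv_st_le (fI (b, x))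
    have h6 : |fderiv ℝ fI (b, x) (β, ζ)| ≤ 4 * (‖ζ‖ / ‖x‖) + 12 * ‖β‖ := by
      have := mul_le_mul_of_nonneg_left h4 (by positivity : 0 ≤ 2 * (‖ζ‖ / ‖x‖) + 6 * ‖β‖)
      linarith
    exact mul_le_mul h5 h6 (abs_nonneg _) hK.le

/-- The cut-off at infinity is locally constant outside of the ring. -/
theorem fderiv_chiI_eq_zero {b : Bs} {x : ℂ} (h : ‖x‖ ≤ Rr b ∨ 2 * Rr b ^ 2 ≤ ‖x‖ ^ 2) :
    fderiv ℝ (fun q : Bs × ℂ => chiI q.1 q.2) (b, x) = 0 := by
  refine ContinuousLinearMap.ext fun w => ?_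
  simp only [chiI_eq]
  have hp := Rr_pos b
  rw [fderiv_st_comp (differentiableAt_fI (b, x)), deriv_st_eq_zero, zero_mul]
  · rfl
  · unfold fI
    rcases h with h | h
    · left
      have : ‖x‖ ^ 2 / Rr b ^ 2 ≤ 1 := by
        rw [div_le_one (by positivity)]
        exact pow_le_pow_left₀ (norm_nonneg _) h 2
      simp only
      linarith
    · right
      have : 2 ≤ ‖x‖ ^ 2 / Rr b ^ 2 := by
        rw [le_div_iff₀ (by positivity)]; exact h
      simp only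
      linarith

/-! ### (F4) the primitives -/

/-- **(F4)** The primitive from a root, if one root `i₀` is the partner of `b j` and the others are
at distance at least `2 δ`. -/
theorem norm_EWc_le_of {b : Bs} {j i₀ : Fin 6} (hi : i₀ ≠ j) {x y : ℂ} (h : (b, x) ∈ Dj j)
    (hx : x ≠ b j) (hy : y ^ 2 = ff (b, x)) {δ M : ℝ} (hδ : 0 < δ)
    (hd : ∀ i, i ≠ j → i ≠ i₀ → 2 * δ ≤ ‖b i - b j‖) (hM : ‖b j‖ ≤ M) (hM' : ‖x‖ ≤ M) (k : ℕ) :
    ‖EWc k b j x y‖ ≤ 32 * M ^ k / δ ^ 2 := by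
  have h1 := norm_EWc_sq_le k h hy
  have hM0 : 0 ≤ M := (norm_nonneg _).trans hM
  have hxp : 0 < ‖x - b j‖ := norm_pos_iff.2 (sub_ne_zero.2 hx)
  have hmem : i₀ ∈ univ.erase j := Finset.mem_erase.2 ⟨hi, mem_univ _⟩
  have h2 : ‖x - b j‖ * δ ^ 4 ≤ ∏ i ∈ univ.erase j, (‖b i - b j‖ / 2) := by
    rw [← Finset.mul_prod_erase _ _ hmem]
    have h3 : ‖x - b j‖ ≤ ‖b i₀ - b j‖ / 2 := by
      have := h i₀ hi
      simp only at this
      linarith
    have h4 : δ ^ 4 ≤ ∏ i ∈ (univ.erase j).erase i₀, (‖b i - b j‖ / 2) := by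
      have h5 : ((univ.erase j).erase i₀).card = 4 := by
        rw [Finset.card_erase_of_mem hmem, Finset.card_erase_of_mem (mem_univ _)]
        simp
      calc δ ^ 4 = ∏ _i ∈ (univ.erase j).erase i₀, δ := by rw [Finset.prod_const, h5]
        _ ≤ _ := by
            refine Finset.prod_le_prod (fun _ _ => hδ.le) fun i hi' => ?_
            have h6 := Finset.mem_erase.1 hi'
            have := hd i (Finset.mem_erase.1 h6.2).1 h6.1
            linarith
    exact mul_le_mul h3 h4 (by positivity) (by positivity)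
  have h3 : ‖x - b j‖ / (∏ i ∈ univ.erase j, (‖b i - b j‖ / 2)) ≤ 1 / δ ^ 4 := by
    have h4 : 0 < ‖x - b j‖ * δ ^ 4 := by positivity
    rw [div_le_div_iff₀ (lt_of_lt_of_le h4 h2) (by positivity)]
    linarith
  have h4 : (max ‖b j‖ ‖x‖) ^ k ≤ M ^ k :=
    pow_le_pow_left₀ (le_max_of_le_left (norm_nonneg _)) (max_le hM hM') k
  have h5 : ‖EWc k b j x y‖ ^ 2 ≤ (32 * M ^ k / δ ^ 2) ^ 2 := by
    refine h1.trans ?_
    calc _ ≤ 1 / δ ^ 4 * (32 * M ^ k) ^ 2 := by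
          refine mul_le_mul h3 ?_ (by positivity) (by positivity)
          exact pow_le_pow_left₀ (by positivity) (by linarith) 2
      _ = _ := by field_simp
  exact (pow_le_pow_iff_left₀ (norm_nonneg _) (by positivity) two_ne_zero).1 h5

/-- The pair of primitives from a root. -/
theorem norm_EWv_le_of {b : Bs} {j i₀ : Fin 6} (hi : i₀ ≠ j) {x y : ℂ} (h : (b, x) ∈ Dj j)
    (hx : x ≠ b j) (hy : y ^ 2 = ff (b, x)) {δ M : ℝ} (hδ : 0 < δ)
    (hd : ∀ i, i ≠ j → i ≠ i₀ → 2 * δ ≤ ‖b i - b j‖) (hM : ‖b j‖ ≤ M) (hM' : ‖x‖ ≤ M)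
    (hM1 : 1 ≤ M) : ‖EWv b j x y‖ ≤ 32 * M / δ ^ 2 := by
  have h0 := norm_EWc_le_of hi h hx hy hδ hd hM hM' 0
  have h1 := norm_EWc_le_of hi h hx hy hδ hd hM hM' 1
  rw [pow_one] at h1
  rw [pow_zero] at h0
  unfold EWv
  rw [Prod.norm_def]
  refine max_le (h0.trans ?_) h1
  have : 32 * 1 / δ ^ 2 ≤ 32 * M / δ ^ 2 := by gcongr
  exact this

/-- The pair of primitives from infinity. -/
theorem norm_EIv_le {b : Bs} {x y : ℂ} (h : Rr b ≤ ‖x‖) (hy : y ^ 2 = ff (b, x)) :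
    ‖EIv b x y‖ ≤ 8 / ‖x‖ := by
  have h8 := eight_le_Rr b
  have hxp : 8 ≤ ‖x‖ := h8.trans h
  have hx0 : x ≠ 0 := norm_pos_iff.1 (by linarith)
  have hD : (b, x⁻¹) ∈ DI := mem_DI_inv (two_mul_norm_lt h)
  have h0 := norm_EIc_le (k := 0) (by norm_num) hx0 hD hy
  have h1 := norm_EIc_le (k := 1) le_rfl hx0 hD hy
  unfold EIv
  rw [Prod.norm_def]
  refine max_le (h0.trans ?_) (h1.trans (by simp))
  have : ‖x‖ ≤ ‖x‖ ^ (2 - 0) := by
    simp only [Nat.sub_zero]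
    nlinarith
  gcongr

/-! ### the bound of the cut-off form in a direction -/

/-- **Near a root, in log directions**: `C = 8 Kst K · 32 M / δ²` times `‖A b‖`, plus `‖η w‖`. -/
theorem norm_etaP_root_le (hF : FlatOn O η A) {j i₀ : Fin 6} (hi : i₀ ≠ j) {b : Bs} (hb : b ∈ O)
    {x y : ℂ} (h : 4 * ‖x - b j‖ ^ 2 < hh b j) (hx : x ≠ b j) (hy : y ^ 2 = ff (b, x))
    {δ M K : ℝ} (hδ : 0 < δ) (hd : ∀ i, i ≠ j → i ≠ i₀ → 2 * δ ≤ ‖b i - b j‖) (hM : ‖b j‖ ≤ M)
    (hM' : ‖x‖ ≤ M) (hM1 : 1 ≤ M) (hK : 0 ≤ K) {β : Bs} {ζ : ℂ}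
    (h1 : ∀ i, i ≠ j → ‖β i - β j‖ ≤ K * ‖b i - b j‖)
    (h2 : ‖ζ - β j‖ ≤ K * ‖x - b j‖) :
    ‖etaP η A b x y (β, ζ)‖ ≤ ‖η b x y (β, ζ)‖ + 8 * Kst * K * (‖A b‖ * (32 * M / δ ^ 2)) := by
  have hC := hF.sub hb
  have hD : (b, x) ∈ Dj j := mem_Dj_of_hh hC h
  have hff : ff (b, x) ≠ 0 := by
    rw [ff_ne_zero_iff]
    intro i
    by_cases hij : i = j
    · rw [hij]; exact hx
    · intro h0
      have h3 := hD i hij
      simp only at h3 h0
      rw [← h0] at h3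
      linarith [norm_nonneg (x - b j)]
  have hY : IsBr (Ybr (b, x) y) (b, x) := isBr_Ybr hff hy
  -- the other cut-offs vanish near this point
  have hoth : ∀ i, i ≠ j → hh b i < 32 * ‖x - b i‖ ^ 2 := by
    intro i hij
    have h3 := hh_le hC hij.symm
    have h4 := norm_sub_ge hD hij
    have h5 : ‖b j - b i‖ = ‖b i - b j‖ := norm_sub_rev _ _
    rw [h5] at h3
    have h6 : (‖b i - b j‖ / 2) ^ 2 ≤ ‖x - b i‖ ^ 2 :=
      pow_le_pow_left₀ (by positivity) h4 2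
    have h7 : 0 < ‖b i - b j‖ := norm_pos_iff.2 (sub_ne_zero.2 (Function.Injective.ne hC hij))
    nlinarith
  have hinf : ‖x‖ < Rr b := by
    have h3 := hh_le hC hi
    have h4 : 2 * ‖x - b j‖ < ‖b i₀ - b j‖ := by
      have := hD i₀ hi
      simpa using this
    have h5 := norm_le_Rr b i₀
    have h6 := norm_le_Rr b j
    have h7 := norm_sub_le (b i₀) (b j)
    have h8 : ‖x‖ ≤ ‖x - b j‖ + ‖b j‖ := by simpa using norm_add_le (x - b j) (b j)
    have h9 := Rr_pos b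
    linarith
  rw [etaP_formula hF hb hff hy]
  have hI0 : chiI b x = 0 := chiI_eq_zero hinf.le
  have hI1 : fderiv ℝ (fun q : Bs × ℂ => chiI q.1 q.2) (b, x) = 0 :=
    fderiv_chiI_eq_zero (Or.inl hinf.le)
  have hW0 : ∑ i, chiW b i x = chiW b j x := by
    refine Finset.sum_eq_single j (fun i _ hij => ?_) (fun h0 => absurd (Finset.mem_univ j) h0)
    exact chiW_eq_zero hC (hoth i hij).le
  have hW1 : ∑ i, (fderiv ℝ (fun q : Bs × ℂ => chiW q.1 i q.2) (b, x)).smulRight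
      (A b (EWv b i x y)) = (fderiv ℝ (fun q : Bs × ℂ => chiW q.1 j q.2) (b, x)).smulRight
      (A b (EWv b j x y)) := by
    refine Finset.sum_eq_single j (fun i _ hij => ?_) (fun h0 => absurd (Finset.mem_univ j) h0)
    rw [fderiv_chiW_eq_zero hC (Or.inr (hoth i hij).le)]
    refine ContinuousLinearMap.ext fun w => ?_
    simp
  rw [hI0, hI1, hW0, hW1]
  have hval : ((1 - chiW b j x - 0) • η b x y + ((0 : ℝ) * sgI b x y) •
      (Cinf η A b).comp (ContinuousLinearMap.fst ℝ Bs ℂ) -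
      (fderiv ℝ (fun q : Bs × ℂ => chiW q.1 j q.2) (b, x)).smulRight (A b (EWv b j x y)) -
      (0 : Bs × ℂ →L[ℝ] ℝ).smulRight (A b (EIv b x y))) (β, ζ) =
      (1 - chiW b j x) • η b x y (β, ζ) -
      (fderiv ℝ (fun q : Bs × ℂ => chiW q.1 j q.2) (b, x) (β, ζ)) • A b (EWv b j x y) := by
    simp
  rw [hval]
  have e1 : ‖(1 - chiW b j x) • η b x y (β, ζ)‖ ≤ ‖η b x y (β, ζ)‖ := by
    rw [norm_smul, Real.norm_eq_abs, abs_of_nonneg (by linarith [chiW_le_one b j x])]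
    have := chiW_nonneg b j x
    nlinarith [norm_nonneg (η b x y (β, ζ))]
  have e2 : ‖(fderiv ℝ (fun q : Bs × ℂ => chiW q.1 j q.2) (b, x) (β, ζ)) • A b (EWv b j x y)‖ ≤
      8 * Kst * K * (‖A b‖ * (32 * M / δ ^ 2)) := by
    rw [norm_smul, Real.norm_eq_abs]
    have h3 := abs_fderiv_chiW_le hC j hK h1 h2
    have h4 : ‖A b (EWv b j x y)‖ ≤ ‖A b‖ * (32 * M / δ ^ 2) := by
      refine ((A b).le_opNorm _).trans ?_
      exact mul_le_mul_of_nonneg_left (norm_EWv_le_of hi hD hx hy hδ hd hM hM' hM1) (norm_nonneg _)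
    have := Kst_pos
    exact mul_le_mul h3 h4 (norm_nonneg _) (by positivity)
  exact (norm_sub_le _ _).trans (add_le_add e1 e2)

end

end Vale.Agent.P273.H604
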