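import Vale.Agent.P273.H214.Gauge

/-!
# P273, row BULK-F4, (T5): the cut-off form near infinity

For `2 (Rr b)² < |x|²` the form `etaP η A` on the sheet `y = s x³ Pinf b (1/x)` is `s` times a form
`Cinf η A b` on the base, smooth and closed in `b`.
-/

namespace Vale.Agent.P273.H604

open scoped ContDiff Topology
open Set Filter MeasureTheory Finset
open H214

noncomputable section

variable {H : Type*} [NormedAddCommGroup H] [NormedSpace ℝ H]

variable {O : Set Bs} {η : Bs → ℂ → ℂ → (Bs × ℂ →L[ℝ] H)} {A : Bs → (ℂ × ℂ →L[ℝ] H)}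

/-- The far region. -/
def Far : Set (Bs × ℂ) := {p | 2 * Rr p.1 ^ 2 < ‖p.2‖ ^ 2}

theorem continuous_Rr : Continuous Rr := contDiff_Rr.continuous

theorem isOpen_Far : IsOpen Far := by
  have := continuous_Rr
  refine isOpen_lt (by fun_prop) (by fun_prop)

theorem Far.lt {p : Bs × ℂ} (h : p ∈ Far) : Rr p.1 < ‖p.2‖ := by
  have h1 := Rr_pos p.1
  have h2 : 2 * Rr p.1 ^ 2 < ‖p.2‖ ^ 2 := h
  by_contra h3
  have h4 : ‖p.2‖ ^ 2 ≤ Rr p.1 ^ 2 := pow_le_pow_left₀ (norm_nonneg _) (not_lt.1 h3) 2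
  nlinarith

theorem Far.ne_zero {p : Bs × ℂ} (h : p ∈ Far) : p.2 ≠ 0 := by
  have h1 := Far.lt h
  have h2 := Rr_pos p.1
  exact norm_pos_iff.1 (by linarith)

theorem Far.mem_DI {p : Bs × ℂ} (h : p ∈ Far) : (p.1, p.2⁻¹) ∈ DI :=
  mem_DI_inv (two_mul_norm_lt (Far.lt h).le)

theorem Far.ff_ne {p : Bs × ℂ} (h : p ∈ Far) : ff p ≠ 0 := by
  rw [ff_ne_zero_iff]
  intro i hi
  have h1 := Far.lt h
  have h2 := norm_le_Rr p.1 i
  have h3 := Rr_pos p.1
  rw [hi] at h1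
  linarith [norm_nonneg (p.1 i)]

theorem Far.chiI {p : Bs × ℂ} (h : p ∈ Far) : chiI p.1 p.2 = 1 :=
  chiI_eq_one (le_of_lt h)

/-- The cut-offs at the roots vanish in the far region. -/
theorem Far.chiW {p : Bs × ℂ} (hb : p.1 ∈ Cf) (h : p ∈ Far) (j : Fin 6) : chiW p.1 j p.2 = 0 := by
  refine chiW_eq_zero hb ?_
  obtain ⟨i, hi⟩ : ∃ i : Fin 6, i ≠ j := exists_ne j
  have h1 := hh_le hb hi
  have h2 := Far.lt h
  have h3 := norm_le_Rr p.1 i
  have h4 := norm_le_Rr p.1 j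
  have h5 := norm_sub_le (p.1 i) (p.1 j)
  have h6 := norm_sub_norm_le p.2 (p.1 j)
  have h7 := Rr_pos p.1
  have h8 : ‖p.1 i - p.1 j‖ ≤ ‖p.2 - p.1 j‖ := by linarith
  have h9 : ‖p.1 i - p.1 j‖ ^ 2 ≤ ‖p.2 - p.1 j‖ ^ 2 := pow_le_pow_left₀ (norm_nonneg _) h8 2
  have h10 := sq_nonneg (‖p.2 - p.1 j‖)
  linarith

/-- The branch of `y` at infinity. -/
def Yinf (p : Bs × ℂ) : ℂ := p.2 ^ 3 * Pinf p.1 p.2⁻¹

theorem isBr_Yinf {p : Bs × ℂ} (h : p ∈ Far) : IsBr Yinf p := by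
  have h0 := Far.ne_zero h
  have h1 : ContinuousAt (fun q : Bs × ℂ => ((q.1, q.2⁻¹) : Bs × ℂ)) p :=
    continuousAt_fst.prodMk (continuousAt_snd.inv₀ h0)
  have h2 : ContinuousAt (fun q : Bs × ℂ => Pinf q.1 q.2⁻¹) p :=
    ContinuousAt.comp (g := fun p : Bs × ℂ => Pinf p.1 p.2)
      (f := fun q : Bs × ℂ => ((q.1, q.2⁻¹) : Bs × ℂ)) (differentiableAt_Pinf
        (Far.mem_DI h)).continuousAt h1
  refine ⟨Far.ff_ne h, (continuousAt_snd.pow 3).mul h2, ?_⟩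
  filter_upwards [isOpen_Far.mem_nhds h] with q hq
  exact cube_Pinf_sq (Far.ne_zero hq) (Far.mem_DI hq)

/-- The function which is cut off, along a branch, in the far region. -/
def eI (A : Bs → (ℂ × ℂ →L[ℝ] H)) (Y : Bs × ℂ → ℂ) (p : Bs × ℂ) : H :=
  A p.1 (EIv p.1 p.2 (Y p))

theorem Ecut_far {p : Bs × ℂ} (hb : p.1 ∈ Cf) (h : p ∈ Far) (Y : Bs × ℂ → ℂ) :
    Ecut A p (Y p) = eI A Y p := by
  unfold Ecut eI
  simp [Far.chiW hb h, Far.chiI h]

theorem dcut_branch {Y : Bs × ℂ → ℂ} {p : Bs × ℂ} (h : IsBr Y p) :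
    dcut A p.1 p.2 (Y p) = fderiv ℝ (fun q => Ecut A q (Y q)) p := by
  unfold dcut
  refine Filter.EventuallyEq.fderiv_eq ?_
  filter_upwards [h.eq_Ybr] with q hq
  rw [hq]

theorem dcut_far (hO : IsOpen O) (hOC : O ⊆ Cf) {Y : Bs × ℂ → ℂ} {p : Bs × ℂ} (hb : p.1 ∈ O)
    (hp : p ∈ Far) (h : IsBr Y p) : dcut A p.1 p.2 (Y p) = fderiv ℝ (eI A Y) p := by
  rw [dcut_branch h]
  refine Filter.EventuallyEq.fderiv_eq ?_
  have h1 : ∀ᶠ q : Bs × ℂ in 𝓝 p, q.1 ∈ O := continuousAt_fst.eventually_mem (hO.mem_nhds hb)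
  filter_upwards [h1, isOpen_Far.mem_nhds hp] with q h2 h3
  exact Ecut_far (hOC h2) h3 Y

theorem contDiffAt_EIc_branch (k : ℕ) {Y : Bs × ℂ → ℂ} {p : Bs × ℂ} (hp : p ∈ Far)
    (h : IsBr Y p) : ContDiffAt ℂ ∞ (fun q : Bs × ℂ => EIc k q.1 q.2 (Y q)) p := by
  have h1 : ContDiffAt ℂ ∞ (fun q : Bs × ℂ => (q, Y q)) p := contDiffAt_id.prodMk h.smoothC
  exact ContDiffAt.comp (g := fun q : (Bs × ℂ) × ℂ => EIc k q.1.1 q.1.2 q.2)
    (f := fun q : Bs × ℂ => (q, Y q)) p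
    (contDiffAt_EIc k (Far.ne_zero hp) (Far.mem_DI hp) h.ne_zero) h1

theorem contDiffAt_eI {Y : Bs × ℂ → ℂ} {p : Bs × ℂ} (hA : ContDiffAt ℝ ∞ A p.1)
    (hp : p ∈ Far) (h : IsBr Y p) : ContDiffAt ℝ ∞ (eI A Y) p := by
  unfold eI
  have h1 : ContDiffAt ℝ ∞ (fun q : Bs × ℂ => A q.1) p :=
    ContDiffAt.comp (g := A) (f := Prod.fst) p hA contDiffAt_fst
  have h2 : ContDiffAt ℝ ∞ (fun q : Bs × ℂ => EIv q.1 q.2 (Y q)) p :=
    ((contDiffAt_EIc_branch 0 hp h).restrict_scalars ℝ).prodMk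
      ((contDiffAt_EIc_branch 1 hp h).restrict_scalars ℝ)
  exact h1.clm_apply h2

/-- The vertical part of the differential of `eI`. -/
theorem fderiv_eI_vert {Y : Bs × ℂ → ℂ} {p : Bs × ℂ} (hA : ContDiffAt ℝ ∞ A p.1)
    (hp : p ∈ Far) (h : IsBr Y p) (ζ : ℂ) :
    fderiv ℝ (eI A Y) p (0, ζ) = A p.1 (ζ / Y p, p.2 * ζ / Y p) := by
  have h0 : DifferentiableAt ℝ (eI A Y) p := (contDiffAt_eI hA hp h).differentiableAt (by simp)
  have h1 : HasFDerivAt (fun x : ℂ => eI A Y (p.1, x))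
      ((fderiv ℝ (eI A Y) p).comp (ContinuousLinearMap.inr ℝ Bs ℂ)) p.2 :=
    HasFDerivAt.comp (g := eI A Y) (f := fun x : ℂ => ((p.1, x) : Bs × ℂ)) p.2 h0.hasFDerivAt
      (hasFDerivAt_prodMk_right p.1 p.2)
  have hsec : ContinuousAt (fun x : ℂ => ((p.1, x) : Bs × ℂ)) p.2 := by fun_prop
  have hk : ∀ k ≤ 1, HasFDerivAt (fun x : ℂ => EIc k p.1 x (Y (p.1, x)))
      (((ContinuousLinearMap.toSpanSingleton ℂ (p.2 ^ k / Y p))).restrictScalars ℝ) p.2 := by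
    intro k hk
    have h2 : HasDerivAt (fun x : ℂ => EIc k p.1 x (Y (p.1, x))) (p.2 ^ k / Y (p.1, p.2)) p.2 := by
      refine hasDerivAt_EIc hk (Far.ne_zero hp) (Far.mem_DI hp)
        (Y := fun x => Y (p.1, x)) ?_ ?_
      · exact ContinuousAt.comp (g := Y) (f := fun x : ℂ => ((p.1, x) : Bs × ℂ)) h.cont hsec
      · have := hsec.eventually h.sq
        filter_upwards [this] with x hx using hx
    exact h2.hasFDerivAt.restrictScalars ℝ
  have h3 : HasFDerivAt (fun x : ℂ => eI A Y (p.1, x))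
      ((A p.1).comp ((((ContinuousLinearMap.toSpanSingleton ℂ (p.2 ^ 0 / Y p))).restrictScalars
        ℝ).prod (((ContinuousLinearMap.toSpanSingleton ℂ (p.2 ^ 1 / Y p))).restrictScalars ℝ)))
      p.2 := by
    exact HasFDerivAt.comp (g := A p.1) (f := fun x : ℂ => EIv p.1 x (Y (p.1, x))) p.2
      (A p.1).hasFDerivAt ((hk 0 (by norm_num)).prodMk (hk 1 le_rfl))
  have h4 := h1.unique h3
  have h5 := congrArg (fun L : ℂ →L[ℝ] H => L ζ) h4
  simp only [ContinuousLinearMap.comp_apply, ContinuousLinearMap.inr_apply] at h5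
  rw [h5]
  congr 1
  simp only [ContinuousLinearMap.prod_apply, ContinuousLinearMap.coe_restrictScalars',
    ContinuousLinearMap.toSpanSingleton_apply, smul_eq_mul, pow_zero, pow_one]
  ext <;> simp <;> ring

theorem etaP_eq_far (h : FlatOn O η A) {Y : Bs × ℂ → ℂ} {p : Bs × ℂ} (hb : p.1 ∈ O)
    (hp : p ∈ Far) (hY : IsBr Y p) :
    etaP η A p.1 p.2 (Y p) = η p.1 p.2 (Y p) - fderiv ℝ (eI A Y) p := by
  unfold etaP
  rw [dcut_far h.isOpen h.sub hb hp hY]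

theorem etaP_eventually (h : FlatOn O η A) {Y : Bs × ℂ → ℂ} {p : Bs × ℂ} (hb : p.1 ∈ O)
    (hp : p ∈ Far) (hY : IsBr Y p) :
    (fun q : Bs × ℂ => etaP η A q.1 q.2 (Y q)) =ᶠ[𝓝 p]
      fun q => η q.1 q.2 (Y q) - fderiv ℝ (eI A Y) q := by
  have h1 : ∀ᶠ q : Bs × ℂ in 𝓝 p, q.1 ∈ O := continuousAt_fst.eventually_mem (h.isOpen.mem_nhds hb)
  filter_upwards [h1, isOpen_Far.mem_nhds hp, hY.eventually] with q h2 h3 h4
  exact etaP_eq_far h h2 h3 h4

/-- The cut-off form is smooth in the far region. -/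
theorem etaP_smooth_far (h : FlatOn O η A) {Y : Bs × ℂ → ℂ} {p : Bs × ℂ} (hb : p.1 ∈ O)
    (hp : p ∈ Far) (hY : IsBr Y p) :
    ContDiffAt ℝ ∞ (fun q : Bs × ℂ => etaP η A q.1 q.2 (Y q)) p := by
  refine ContDiffAt.congr_of_eventuallyEq ?_ (etaP_eventually h hb hp hY)
  refine (h.smooth p hb Y hY).sub ?_
  exact (contDiffAt_eI (h.smoothA _ hb) hp hY).fderiv_right (m := ∞) (by simp)

/-- The cut-off form is closed in the far region. -/
theorem etaP_closed_far (h : FlatOn O η A) {Y : Bs × ℂ → ℂ} {p : Bs × ℂ} (hb : p.1 ∈ O)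
    (hp : p ∈ Far) (hY : IsBr Y p) (v w : Bs × ℂ) :
    fderiv ℝ (fun q : Bs × ℂ => etaP η A q.1 q.2 (Y q)) p v w =
      fderiv ℝ (fun q : Bs × ℂ => etaP η A q.1 q.2 (Y q)) p w v := by
  rw [(etaP_eventually h hb hp hY).fderiv_eq]
  have h1 : ContDiffAt ℝ ∞ (eI A Y) p := contDiffAt_eI (h.smoothA _ hb) hp hY
  have h2 : DifferentiableAt ℝ (fun q => fderiv ℝ (eI A Y) q) p :=
    (h1.fderiv_right (m := ∞) (by simp)).differentiableAt (by simp)
  have h3 : DifferentiableAt ℝ (fun q : Bs × ℂ => η q.1 q.2 (Y q)) p :=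
    (h.smooth p hb Y hY).differentiableAt (by simp)
  rw [fderiv_fun_sub h3 h2]
  have h4 : IsSymmSndFDerivAt ℝ (eI A Y) p := h1.isSymmSndFDerivAt (by
    simp only [minSmoothness_of_isRCLikeNormedField]
    exact WithTop.coe_le_coe.2 (le_top : (2 : ℕ∞) ≤ ⊤))
  have h5 := h.closed p hb Y hY v w
  simp only [_root_.sub_apply]
  rw [h5, h4.eq v w]

/-- The cut-off form has no vertical part in the far region. -/
theorem etaP_vert_far (h : FlatOn O η A) {b : Bs} (hb : b ∈ O) {x y : ℂ} (hx : (b, x) ∈ Far)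
    (hy : y ^ 2 = ff (b, x)) (ζ : ℂ) : etaP η A b x y (0, ζ) = 0 := by
  have hY : IsBr (Ybr (b, x) y) (b, x) := isBr_Ybr (Far.ff_ne hx) hy
  have h0 : Ybr (b, x) y (b, x) = y := Ybr_self (Far.ff_ne hx) y
  have h1 := etaP_eq_far h (p := (b, x)) hb hx hY
  rw [h0] at h1
  rw [h1, _root_.sub_apply, fderiv_eI_vert (h.smoothA _ hb) hx hY, h0,
    h.vert b hb x y hy ?_ ζ, sub_self]
  intro h2
  rw [h2] at hy
  exact Far.ff_ne hx (by rw [← hy]; simp)

/-- `etaP` is odd. -/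
theorem etaP_odd (h : ∀ b x y, η b x (-y) = -η b x y) (b : Bs) (x y : ℂ) :
    etaP η A b x (-y) = -etaP η A b x y := by
  have h1 : ∀ p, Ecut A p (Ybr (b, x) (-y) p) = -Ecut A p (Ybr (b, x) y p) := by
    intro p
    have h2 : ∀ j, EWv p.1 j p.2 (-Ybr (b, x) y p) = -EWv p.1 j p.2 (Ybr (b, x) y p) := by
      intro j
      simp [EWv, EWc_neg]
    have h3 : EIv p.1 p.2 (-Ybr (b, x) y p) = -EIv p.1 p.2 (Ybr (b, x) y p) := by
      simp [EIv, EIc_neg]
    unfold Ecut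
    rw [Ybr_neg, h3]
    simp only [h2, map_neg, smul_neg, Finset.sum_neg_distrib]
    abel
  unfold etaP dcut
  rw [h, funext h1, fderiv_fun_neg]
  abel

/-- The path between two points of the far region. -/
def pth (x x' : ℂ) (t : ℝ) : ℂ :=
  Complex.exp ((1 - (Real.smoothTransition t : ℂ)) * Complex.log x +
    (Real.smoothTransition t : ℂ) * Complex.log x')

theorem pth_zero {x x' : ℂ} (hx : x ≠ 0) : pth x x' 0 = x := by
  simp [pth, Real.smoothTransition.zero, Complex.exp_log hx]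

theorem pth_one {x x' : ℂ} (hx' : x' ≠ 0) : pth x x' 1 = x' := by
  simp [pth, Real.smoothTransition.one, Complex.exp_log hx']

theorem pth_far {b : Bs} {x x' : ℂ} (hx : (b, x) ∈ Far) (hx' : (b, x') ∈ Far) (t : ℝ) :
    (b, pth x x' t) ∈ Far := by
  have h1 : 2 * Rr b ^ 2 < ‖x‖ ^ 2 := hx
  have h2 : 2 * Rr b ^ 2 < ‖x'‖ ^ 2 := hx'
  have h3 : (0 : ℝ) < ‖x‖ := norm_pos_iff.2 (Far.ne_zero hx)
  have h4 : (0 : ℝ) < ‖x'‖ := norm_pos_iff.2 (Far.ne_zero hx')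
  set τ := Real.smoothTransition t with hτ
  have h5 : 0 ≤ τ := Real.smoothTransition.nonneg t
  have h6 : τ ≤ 1 := Real.smoothTransition.le_one t
  have h7 : ‖pth x x' t‖ = Real.exp ((1 - τ) * Real.log ‖x‖ + τ * Real.log ‖x'‖) := by
    rw [pth, Complex.norm_exp]
    congr 1
    simp only [Complex.add_re, Complex.mul_re, Complex.sub_re, Complex.one_re, Complex.ofReal_re,
      Complex.sub_im, Complex.one_im, Complex.ofReal_im, sub_self, zero_mul, sub_zero,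
      Complex.log_re, ← hτ]
  have h8 : Real.log (min ‖x‖ ‖x'‖) ≤ (1 - τ) * Real.log ‖x‖ + τ * Real.log ‖x'‖ := by
    have h9 : Real.log (min ‖x‖ ‖x'‖) ≤ Real.log ‖x‖ :=
      Real.log_le_log (lt_min h3 h4) (min_le_left _ _)
    have h10 : Real.log (min ‖x‖ ‖x'‖) ≤ Real.log ‖x'‖ :=
      Real.log_le_log (lt_min h3 h4) (min_le_right _ _)
    nlinarith [mul_le_mul_of_nonneg_left h9 (sub_nonneg.2 h6), mul_le_mul_of_nonneg_left h10 h5]
  have h11 : min ‖x‖ ‖x'‖ ≤ ‖pth x x' t‖ := by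
    rw [h7, ← Real.exp_log (lt_min h3 h4)]
    exact Real.exp_le_exp.2 h8
  have h12 : 2 * Rr b ^ 2 < (min ‖x‖ ‖x'‖) ^ 2 := by
    rcases min_choice ‖x‖ ‖x'‖ with h | h <;> rw [h]
    · exact h1
    · exact h2
  have h13 : (min ‖x‖ ‖x'‖) ^ 2 ≤ ‖pth x x' t‖ ^ 2 :=
    pow_le_pow_left₀ (lt_min h3 h4).le h11 2
  exact lt_of_lt_of_le h12 h13

theorem differentiable_pth (x x' : ℂ) : Differentiable ℝ (pth x x') := by
  unfold pth
  have h1 : Differentiable ℝ (fun t : ℝ => ((Real.smoothTransition t : ℝ) : ℂ)) :=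
    Complex.ofRealCLM.differentiable.comp
      ((Real.smoothTransition.contDiff (n := 1)).differentiable (by simp))
  fun_prop

/-- **The cut-off form does not depend on `x` in the far region.** -/
theorem etaP_const_far (h : FlatOn O η A) {b : Bs} (hb : b ∈ O) {x x' : ℂ} (hx : (b, x) ∈ Far)
    (hx' : (b, x') ∈ Far) {s : ℂ} (hs : s ^ 2 = 1) :
    etaP η A b x (s * Yinf (b, x)) = etaP η A b x' (s * Yinf (b, x')) := by
  have hf := pth_far hx hx'
  have hcont : Continuous (fun t => s * Yinf (b, pth x x' t)) := by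
    refine continuous_const.mul (continuous_iff_continuousAt.2 fun t => ?_)
    exact ContinuousAt.comp (g := Yinf) (f := fun t => ((b, pth x x' t) : Bs × ℂ))
      (isBr_Yinf (hf t)).cont
      (continuousAt_const.prodMk (differentiable_pth x x').continuous.continuousAt)
  have key := const_along_path (β := etaP η A) (b := b) (γ := pth x x')
    (y := fun t => s * Yinf (b, pth x x' t)) (fun t => differentiable_pth x x' t) hcont
    (fun t => by
      rw [mul_pow, hs, one_mul]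
      exact (isBr_Yinf (hf t)).sq.self_of_nhds)
    (fun t => Far.ff_ne (hf t))
    (fun t Y hY => (etaP_smooth_far h (p := (b, pth x x' t)) hb (hf t) hY).differentiableAt
      (by simp))
    (fun t Y hY v w => etaP_closed_far h (p := (b, pth x x' t)) hb (hf t) hY v w)
    (fun t Y hY => by
      have h1 : ∀ᶠ q : Bs × ℂ in 𝓝 (b, pth x x' t), q.1 ∈ O :=
        continuousAt_fst.eventually_mem (h.isOpen.mem_nhds hb)
      filter_upwards [h1, isOpen_Far.mem_nhds (hf t), hY.sq] with q h2 h3 h4 ζ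
      exact etaP_vert_far h h2 h3 h4 ζ) 0 1
  simpa [pth_zero (Far.ne_zero hx), pth_one (Far.ne_zero hx')] using key

/-- A point of the far region. -/
def xst (b : Bs) : ℂ := ((2 * Rr b : ℝ) : ℂ)

theorem xst_far (b : Bs) : (b, xst b) ∈ Far := by
  have h1 := Rr_pos b
  change 2 * Rr b ^ 2 < ‖xst b‖ ^ 2
  rw [xst, Complex.norm_real, Real.norm_eq_abs, abs_of_pos (by linarith)]
  nlinarith

/-- The form on the base at infinity. -/
def Cinf (η : Bs → ℂ → ℂ → (Bs × ℂ →L[ℝ] H)) (A : Bs → (ℂ × ℂ →L[ℝ] H)) (b : Bs) : Bs →L[ℝ] H :=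
  (etaP η A b (xst b) (Yinf (b, xst b))).comp (ContinuousLinearMap.inl ℝ Bs ℂ)

/-- A form without vertical part is a form on the base. -/
theorem eq_comp_fst {L : Bs × ℂ →L[ℝ] H} (h : ∀ ζ : ℂ, L (0, ζ) = 0) :
    L = (L.comp (ContinuousLinearMap.inl ℝ Bs ℂ)).comp (ContinuousLinearMap.fst ℝ Bs ℂ) := by
  refine ContinuousLinearMap.ext fun v => ?_
  have h1 : v = (v.1, 0) + ((0 : Bs), v.2) := by ext <;> simp
  conv_lhs => rw [h1, map_add, h, add_zero]
  simp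

/-- **(T5)** The cut-off form in the far region, on the sheet `y = x³ Pinf b (1/x)`. -/
theorem etaP_inf_pos (h : FlatOn O η A) {b : Bs} (hb : b ∈ O) {x : ℂ} (hx : (b, x) ∈ Far) :
    etaP η A b x (x ^ 3 * Pinf b x⁻¹) = (Cinf η A b).comp (ContinuousLinearMap.fst ℝ Bs ℂ) := by
  have h1 := etaP_const_far h hb hx (xst_far b) (s := 1) (by norm_num)
  rw [one_mul, one_mul] at h1
  change etaP η A b x (Yinf (b, x)) = _
  rw [h1, Cinf]
  exact eq_comp_fst fun ζ => etaP_vert_far h hb (xst_far b)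
    (isBr_Yinf (xst_far b)).sq.self_of_nhds ζ

/-- **(T5)** The cut-off form in the far region, on both sheets. -/
theorem etaP_inf (h : FlatOn O η A) {b : Bs} (hb : b ∈ O) {x : ℂ} (hx : (b, x) ∈ Far) {s : ℝ}
    (hs : s = 1 ∨ s = -1) :
    etaP η A b x ((s : ℂ) * (x ^ 3 * Pinf b x⁻¹)) =
      s • (Cinf η A b).comp (ContinuousLinearMap.fst ℝ Bs ℂ) := by
  rcases hs with rfl | rfl
  · rw [Complex.ofReal_one, one_mul, one_smul]
    exact etaP_inf_pos h hb hx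
  · rw [Complex.ofReal_neg, Complex.ofReal_one, neg_one_mul, etaP_odd h.odd,
      etaP_inf_pos h hb hx]
    refine ContinuousLinearMap.ext fun v => ?_
    simp

/-- The same for any point `(x, y)` of the curve in the far region. -/
theorem etaP_inf' (h : FlatOn O η A) {b : Bs} (hb : b ∈ O) {x y : ℂ} (hx : (b, x) ∈ Far)
    (hy : y ^ 2 = ff (b, x)) :
    etaP η A b x y = (y / (x ^ 3 * Pinf b x⁻¹)).re •
      (Cinf η A b).comp (ContinuousLinearMap.fst ℝ Bs ℂ) := by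
  have hP : x ^ 3 * Pinf b x⁻¹ ≠ 0 :=
    mul_ne_zero (pow_ne_zero _ (Far.ne_zero hx)) (Pinf_ne_zero _ _)
  have h1 := exists_sign (Far.ne_zero hx) (Far.mem_DI hx) hy
  have h2 : y = y / (x ^ 3 * Pinf b x⁻¹) * (x ^ 3 * Pinf b x⁻¹) := by
    rw [div_mul_cancel₀ _ hP]
  rcases h1 with h1 | h1
  · have h3 := etaP_inf h hb hx (s := 1) (Or.inl rfl)
    rw [h1] at h2 ⊢
    rw [Complex.one_re]
    rw [← h3, h2]
    simp
  · have h3 := etaP_inf h hb hx (s := -1) (Or.inr rfl)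
    rw [h1] at h2 ⊢
    rw [Complex.neg_re, Complex.one_re]
    rw [← h3, h2]
    simp

/-- `Cinf` by any point of the far region. -/
theorem Cinf_eq (h : FlatOn O η A) {b : Bs} (hb : b ∈ O) {x : ℂ} (hx : (b, x) ∈ Far) :
    Cinf η A b = (etaP η A b x (Yinf (b, x))).comp (ContinuousLinearMap.inl ℝ Bs ℂ) := by
  have h1 := etaP_inf_pos h hb hx
  change etaP η A b x (Yinf (b, x)) = _ at h1
  rw [h1]
  ext v
  simp

theorem Cinf_eventually (h : FlatOn O η A) {b : Bs} (hb : b ∈ O) {x : ℂ} (hx : (b, x) ∈ Far) :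
    Cinf η A =ᶠ[𝓝 b]
      fun b => (etaP η A b x (Yinf (b, x))).comp (ContinuousLinearMap.inl ℝ Bs ℂ) := by
  have h1 : ContinuousAt (fun b : Bs => ((b, x) : Bs × ℂ)) b := by fun_prop
  filter_upwards [h.isOpen.mem_nhds hb, h1.eventually_mem (isOpen_Far.mem_nhds hx)] with c h2 h3
  exact Cinf_eq h h2 h3

/-- **(T5)** The form at infinity is smooth. -/
theorem contDiffAt_Cinf (h : FlatOn O η A) {b : Bs} (hb : b ∈ O) :
    ContDiffAt ℝ ∞ (Cinf η A) b := by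
  refine ContDiffAt.congr_of_eventuallyEq ?_ (Cinf_eventually h hb (xst_far b))
  have h1 := etaP_smooth_far h (p := (b, xst b)) hb (xst_far b) (isBr_Yinf (xst_far b))
  have h2 : ContDiffAt ℝ ∞ (fun c : Bs => ((c, xst b) : Bs × ℂ)) b := by fun_prop
  have h3 : ContDiffAt ℝ ∞ (fun c : Bs => etaP η A c (xst b) (Yinf (c, xst b))) b :=
    ContDiffAt.comp (g := fun q : Bs × ℂ => etaP η A q.1 q.2 (Yinf q))
      (f := fun c : Bs => ((c, xst b) : Bs × ℂ)) b h1 h2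
  exact h3.clm_comp contDiffAt_const

/-- **(T5)** The form at infinity is closed. -/
theorem closed_Cinf (h : FlatOn O η A) {b : Bs} (hb : b ∈ O) (v w : Bs) :
    fderiv ℝ (Cinf η A) b v w = fderiv ℝ (Cinf η A) b w v := by
  set x := xst b with hxdef
  have hx : (b, x) ∈ Far := xst_far b
  rw [(Cinf_eventually h hb hx).fderiv_eq]
  have h1 : DifferentiableAt ℝ (fun q : Bs × ℂ => etaP η A q.1 q.2 (Yinf q)) (b, x) :=
    (etaP_smooth_far h (p := (b, x)) hb hx (isBr_Yinf hx)).differentiableAt (by simp)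
  have h2 : HasFDerivAt (fun c : Bs => ((c, x) : Bs × ℂ)) (ContinuousLinearMap.inl ℝ Bs ℂ) b :=
    hasFDerivAt_prodMk_left b x
  have h3 : HasFDerivAt (fun c : Bs => etaP η A c x (Yinf (c, x)))
      ((fderiv ℝ (fun q : Bs × ℂ => etaP η A q.1 q.2 (Yinf q)) (b, x)).comp
        (ContinuousLinearMap.inl ℝ Bs ℂ)) b :=
    HasFDerivAt.comp (g := fun q : Bs × ℂ => etaP η A q.1 q.2 (Yinf q))
      (f := fun c : Bs => ((c, x) : Bs × ℂ)) b h1.hasFDerivAt h2
  have h4 := h3.clm_comp (hasFDerivAt_const (ContinuousLinearMap.inl ℝ Bs ℂ) b)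
  rw [h4.fderiv]
  have h5 := etaP_closed_far h (p := (b, x)) hb hx (isBr_Yinf hx) (v, 0) (w, 0)
  simpa using h5

end

end Vale.Agent.P273.H604
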