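import Vale.Agent.P273.H604.CutNeck

/-!
# P273, crew ASY0: the cut-offs, marks of the cores

* `lgP_near_eq` : near the zone of the core there is no cut-off;
* `lgP_far_eq` , `lgP_far_zero` : the form of a far mark after the cut-off at infinity.
-/

noncomputable section

namespace Vale.Agent.P273.H604

open Set Filter Finset
open H214 (Bs ff hh hh_le hh_pos chiW chiW_eq_zero EWv FlatFam FlatOn oneOf etaP etaC etaC_false
  etaC_true etaC_zero Cf sub_XX jj fst_fderiv_jj curve_flip EIv)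
open H681 (C6 XX)
open H95 (L ctr IsCl pol rts thA)
open H732 H562
open H803 (LegF posj lgP BaseOk NeckForm)
open H973 (prj)
open H738 (rt6 kp sg6 le3 hd)

/-- the flat forms of the far marks, pulled back -/
def lgI (F : FlatFam) : LegF := fun R m S j ξ p =>
  (((F.η ξ (rootsL p.2.2.1 p.2.2.2.1) (posj R m j p).2⁻¹
    (shE R m S p j * ((posj R m j p).2⁻¹) ^ 3)).comp (fderiv ℝ jj (posj R m j p))).comp
      (prj j)).comp (fderiv ℝ (posE R m) p)

/-- the differential of the cut-off at infinity -/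
def tauI (R : H95.Region) (m : ∀ k, Fin (R.n k + 1)) (j : L) (p : Co R m) : Co R m →L[ℝ] ℝ :=
  ((fderiv ℝ (fun q : Bs × ℂ => chiI q.1 q.2) (jj (posj R m j p))).comp
    (fderiv ℝ jj (posj R m j p))).comp (fderiv ℝ (posj R m j) p)

/-- the differential of the roots -/
def dRt (R : H95.Region) (m : ∀ k, Fin (R.n k + 1)) (p : Co R m) : Co R m →L[ℝ] C6 :=
  fderiv ℝ (fun p : Co R m => rootsL p.2.2.1 p.2.2.2.1) p

section Pt

variable {R : H95.Region} {m : ∀ k, Fin (R.n k + 1)} {S : L → Bool} {N₀ : ℝ} {p : Co R m}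

theorem dRt_eq (p : Co R m) : dRt R m p =
    (ContinuousLinearMap.fst ℝ C6 (L → ℂ)).comp (fderiv ℝ (posE R m) p) :=
  ((ContinuousLinearMap.fst ℝ C6 (L → ℂ)).hasFDerivAt.comp p
    (differentiableAt_posE p).hasFDerivAt).fderiv

theorem norm_hd_small (hN : 5 ≤ N₀) (hp : Adm R m S N₀ p) (l : Fin 3) :
    ‖hd (1 / 16) (le3 R m) l p‖ ≤ 1 / 128 := by
  rw [H738.norm_hd_eq]
  have h1 := adm_five hN hp l
  have h2 : Real.exp (-(p.2.2.1 l) / 2) ≤ 1 / 8 := by
    have h3 : (64 : ℝ) ≤ Real.exp 5 := by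
      have h := Real.exp_one_gt_d9
      calc (64 : ℝ) ≤ 2.7 ^ 5 := by norm_num
        _ ≤ Real.exp 1 ^ 5 := by gcongr; linarith
        _ = Real.exp 5 := by rw [← Real.exp_nat_mul]; norm_num
    have h4 : Real.exp (-(p.2.2.1 l) / 2) ^ 2 ≤ (1 / 8) ^ 2 := by
      rw [← Real.exp_nat_mul]
      calc Real.exp ((2 : ℕ) * (-(p.2.2.1 l) / 2)) ≤ Real.exp (-5) := by
            apply Real.exp_le_exp.2
            push_cast
            linarith
        _ = (Real.exp 5)⁻¹ := Real.exp_neg 5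
        _ ≤ 64⁻¹ := inv_anti₀ (by norm_num) h3
        _ = (1 / 8) ^ 2 := by norm_num
    exact (pow_le_pow_iff_left₀ (Real.exp_pos _).le (by norm_num) two_ne_zero).1 h4
  linarith

/-- points at distance `≥ 1/64` from the centres are off the discs -/
theorem off_disc (hN : 5 ≤ N₀) (hp : Adm R m S N₀ p) {x : ℂ} (hx : ∀ l, 1 / 64 ≤ ‖x - ctr l‖)
    (i : Fin 6) : hh (rootsL p.2.2.1 p.2.2.2.1) i ≤
      32 * ‖x - rootsL p.2.2.1 p.2.2.2.1 i‖ ^ 2 := by
  have hb := sub_XX (adm_mem hN hp)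
  rw [rootsL_eq] at hb ⊢
  have h1 := hh_le_pair hb i
  have h2 := norm_hd_small hN hp (kp i)
  have h3 : ‖sg6 i * hd (1 / 16) (le3 R m) (kp i) p‖ ≤ 1 / 128 := by
    rw [norm_mul, H738.norm_sig (H738.sg6_sq i), one_mul]
    exact h2
  have h4 : 1 / 128 ≤ ‖x - rt6 R m p i‖ := by
    have e : x - ctr (kp i) = (x - rt6 R m p i) + sg6 i * hd (1 / 16) (le3 R m) (kp i) p := by
      unfold rt6 H738.rts; ring
    have h5 := hx (kp i)
    rw [e] at h5
    have h6 := norm_add_le (x - rt6 R m p i) (sg6 i * hd (1 / 16) (le3 R m) (kp i) p)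
    linarith
  have h5 : ‖hd (1 / 16) (le3 R m) (kp i) p‖ ^ 2 ≤ (1 / 128) ^ 2 := by gcongr
  have h6 : (1 / 128) ^ 2 ≤ ‖x - rt6 R m p i‖ ^ 2 := by gcongr
  linarith

theorem eleven_le_Rr (hN : 5 ≤ N₀) (hp : Adm R m S N₀ p) :
    11 ≤ Rr (rootsL p.2.2.1 p.2.2.2.1) := by
  have h1 := norm_le_Rr (rootsL p.2.2.1 p.2.2.2.1) 5
  rw [rootsL_eq] at h1 ⊢
  have h2 := norm_hd_small hN hp (kp 5)
  have h3 : ‖sg6 5 * hd (1 / 16) (le3 R m) (kp 5) p‖ ≤ 1 / 128 := by
    rw [norm_mul, H738.norm_sig (H738.sg6_sq 5), one_mul]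
    exact h2
  have h4 : ‖ctr (kp 5)‖ = 11 / 2 := by
    have : ctr (kp 5) = ((11 / 2 : ℝ) : ℂ) := by
      unfold ctr kp
      push_cast
      norm_num
    rw [this, Complex.norm_real]
    norm_num
  have e : ctr (kp 5) = rt6 R m p 5 - sg6 5 * hd (1 / 16) (le3 R m) (kp 5) p := by
    unfold rt6 H738.rts; ring
  rw [e] at h4
  have h5 := norm_sub_le (rt6 R m p 5) (sg6 5 * hd (1 / 16) (le3 R m) (kp 5) p)
  linarith

theorem zone_near (hp : Adm R m S N₀ p) {j : L} {s : Bool} (h : R.pl j = Sum.inr s)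
    (hS : S j = false) : ‖(posj R m j p).2‖ ≤ 11 ∧ ∀ l, 1 / 64 ≤ ‖(posj R m j p).2 - ctr l‖ := by
  have h1 := hp.2.2.2.1 ⟨j, by simp [h]⟩ (Set.mem_univ _)
  have h2 : (posj R m j p).2 = p.2.2.2.2 ⟨j, by simp [h]⟩ := H738.pos_ppt_core m h p
  rw [← h2] at h1
  simp only [hS, Bool.false_eq_true, if_false] at h1
  exact ⟨mem_closedBall_zero_iff.1 h1.1, h1.2⟩

theorem zone_far (hp : Adm R m S N₀ p) {j : L} {s : Bool} (h : R.pl j = Sum.inr s)
    (hS : S j = true) : ‖(posj R m j p).2‖ ≤ 11⁻¹ := by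
  have h1 := hp.2.2.2.1 ⟨j, by simp [h]⟩ (Set.mem_univ _)
  have h2 : (posj R m j p).2 = p.2.2.2.2 ⟨j, by simp [h]⟩ := H738.pos_ppt_core m h p
  rw [← h2] at h1
  simp only [hS, if_true] at h1
  exact mem_closedBall_zero_iff.1 h1

variable (F : FlatFam) {ξ : Fin 6 → ℝ}

/-- **near core marks**: there is no cut-off -/
theorem lgP_near_eq (hS : FarOk R S) (hN : 5 ≤ N₀) (hp : Adm R m S N₀ p) {j : L} {s : Bool}
    (h : R.pl j = Sum.inr s) (hj : S j = false) (hξ : IsCl ξ) :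
    lgP (oneOf F) R m S j ξ p = lgE F R m S j ξ p := by
  obtain ⟨hx, hx2⟩ := zone_near hp h hj
  have hbX := adm_mem hN hp
  have hb := sub_XX hbX
  have hsq : shE R m S p j ^ 2 = ff (rootsL p.2.2.1 p.2.2.2.1, (posj R m j p).2) := by
    have h1 := adm_sq hS hN hp j
    rw [hj, H214.pol_false] at h1
    exact h1
  have hne : ff (rootsL p.2.2.1 p.2.2.2.1, (posj R m j p).2) ≠ 0 := by
    rw [← hsq]
    exact pow_ne_zero 2 (adm_ne hp j)
  have hx8 : ‖(posj R m j p).2‖ ≤ Rr (rootsL p.2.2.1 p.2.2.2.1) := hx.trans (eleven_le_Rr hN hp)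
  have hform := etaP_formula (F.flat ξ hξ) hbX hne hsq
  have hW : ∀ i, chiW (rootsL p.2.2.1 p.2.2.2.1) i (posj R m j p).2 = 0 := fun i =>
    chiW_eq_zero hb (off_disc hN hp hx2 i)
  have hW' : ∀ i, fderiv ℝ (fun q : Bs × ℂ => chiW q.1 i q.2)
      (rootsL p.2.2.1 p.2.2.2.1, (posj R m j p).2) = 0 := fun i =>
    fderiv_chiW_eq_zero hb (Or.inr (off_disc hN hp hx2 i))
  simp only [chiI_eq_zero hx8, fderiv_chiI_eq_zero (Or.inl hx8), hW, hW'] at hform
  have hη : (oneOf F).η ξ (S j) (posj R m j p) (shE R m S p j) =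
      etaP (F.η ξ) (F.A ξ) (rootsL p.2.2.1 p.2.2.2.1) (posj R m j p).2 (shE R m S p j) := by
    rw [hj]
    exact etaC_false _ _
  unfold lgP
  rw [hη, hform]
  refine ContinuousLinearMap.ext fun v => ?_
  simp only [ContinuousLinearMap.comp_apply, sub_apply, add_apply, smul_apply, smul_eq_mul,
    _root_.sum_apply, ContinuousLinearMap.smulRight_apply, zero_mul, add_zero, sub_zero,
    zero_apply, Finset.sum_const_zero, one_mul, lgE]

theorem far_sq (hS : FarOk R S) (hN : 5 ≤ N₀) (hp : Adm R m S N₀ p) {j : L} (hj : S j = true)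
    (hw : (posj R m j p).2 ≠ 0) :
    (shE R m S p j * ((posj R m j p).2⁻¹) ^ 3) ^ 2 = ff (jj (posj R m j p)) := by
  refine curve_flip hw ?_
  have h1 := adm_sq hS hN hp j
  rw [hj] at h1
  exact h1

/-- **far core marks** -/
theorem lgP_far_eq (hS : FarOk R S) (hN : 5 ≤ N₀) (hp : Adm R m S N₀ p) {j : L} {s : Bool}
    (h : R.pl j = Sum.inr s) (hj : S j = true) (hξ : IsCl ξ) (hw : (posj R m j p).2 ≠ 0) :
    lgP (oneOf F) R m S j ξ p =
      (1 - chiI (rootsL p.2.2.1 p.2.2.2.1) (posj R m j p).2⁻¹) • lgI F R m S j ξ p +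
      (chiI (rootsL p.2.2.1 p.2.2.2.1) (posj R m j p).2⁻¹ *
        sgI (rootsL p.2.2.1 p.2.2.2.1) (posj R m j p).2⁻¹
          (shE R m S p j * ((posj R m j p).2⁻¹) ^ 3)) •
        (Cinf (F.η ξ) (F.A ξ) (rootsL p.2.2.1 p.2.2.2.1)).comp (dRt R m p) -
      (F.A ξ (rootsL p.2.2.1 p.2.2.2.1) (EIv (rootsL p.2.2.1 p.2.2.2.1) (posj R m j p).2⁻¹
        (shE R m S p j * ((posj R m j p).2⁻¹) ^ 3))) • tauI R m j p := by
  have hz := zone_far hp h hj
  have hbX := adm_mem hN hp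
  have hb := sub_XX hbX
  have hsq := far_sq hS hN hp hj hw
  have hne : ff (jj (posj R m j p)) ≠ 0 := by
    rw [← hsq]
    exact pow_ne_zero 2 (mul_ne_zero (adm_ne hp j) (pow_ne_zero _ (inv_ne_zero hw)))
  have hx11 : 11 ≤ ‖(posj R m j p).2⁻¹‖ := by
    rw [norm_inv]
    exact (le_inv_comm₀ (by norm_num) (norm_pos_iff.2 hw)).2 hz
  have hx2 : ∀ l, 1 / 64 ≤ ‖(posj R m j p).2⁻¹ - ctr l‖ := fun l => by
    have h1 := norm_sub_norm_le (posj R m j p).2⁻¹ (ctr l)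
    have h2 := H975.norm_ctr_le l
    linarith
  have hform := etaP_formula (F.flat ξ hξ) (b := rootsL p.2.2.1 p.2.2.2.1)
    (x := (posj R m j p).2⁻¹) hbX hne hsq
  have hW : ∀ i, chiW (rootsL p.2.2.1 p.2.2.2.1) i (posj R m j p).2⁻¹ = 0 := fun i =>
    chiW_eq_zero hb (off_disc hN hp hx2 i)
  have hW' : ∀ i, fderiv ℝ (fun q : Bs × ℂ => chiW q.1 i q.2)
      (rootsL p.2.2.1 p.2.2.2.1, (posj R m j p).2⁻¹) = 0 := fun i =>
    fderiv_chiW_eq_zero hb (Or.inr (off_disc hN hp hx2 i))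
  simp only [hW, hW'] at hform
  have hη : (oneOf F).η ξ (S j) (posj R m j p) (shE R m S p j) =
      (etaP (F.η ξ) (F.A ξ) (rootsL p.2.2.1 p.2.2.2.1) (posj R m j p).2⁻¹
        (shE R m S p j * ((posj R m j p).2⁻¹) ^ 3)).comp (fderiv ℝ jj (posj R m j p)) := by
    rw [hj]
    exact etaC_true hw _
  have hfst : ∀ v, (fderiv ℝ jj (posj R m j p) v).1 = v.1 := fun v =>
    congrArg (fun T : H973.E1 →L[ℝ] C6 => T v) (fst_fderiv_jj hw)
  unfold lgP
  rw [hη, hform]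
  refine ContinuousLinearMap.ext fun v => ?_
  simp only [ContinuousLinearMap.comp_apply, sub_apply, add_apply, smul_apply, smul_eq_mul,
    _root_.sum_apply, ContinuousLinearMap.smulRight_apply, zero_mul, sub_zero,
    zero_apply, Finset.sum_const_zero, lgI, tauI, fderiv_posj, dRt_eq,
    ContinuousLinearMap.coe_fst']
  rw [hfst]
  have e2 : ((prj j) ((fderiv ℝ (posE R m) p) v)).1 = ((fderiv ℝ (posE R m) p) v).1 := rfl
  have e3 : jj (posj R m j p) = (rootsL p.2.2.1 p.2.2.2.1, (posj R m j p).2⁻¹) := rfl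
  rw [e2, e3]
  ring

/-- **far core marks exactly at infinity** -/
theorem lgP_far_zero {j : L} (hj : S j = true) (hw : (posj R m j p).2 = 0) :
    lgP (oneOf F) R m S j ξ p = (if 0 < (shE R m S p j).re then (1 : ℝ) else -1) •
      (Cinf (F.η ξ) (F.A ξ) (rootsL p.2.2.1 p.2.2.2.1)).comp (dRt R m p) := by
  have hη : (oneOf F).η ξ (S j) (posj R m j p) (shE R m S p j) =
      (if 0 < (shE R m S p j).re then (1 : ℝ) else -1) •
        (Cinf (F.η ξ) (F.A ξ) (rootsL p.2.2.1 p.2.2.2.1)).comp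
          (ContinuousLinearMap.fst ℝ C6 ℂ) := by
    rw [hj]
    exact etaC_zero hw _
  unfold lgP
  rw [hη, dRt_eq]
  rfl

/-- `tauI` is the differential of the cut-off in the chart -/
theorem tauI_eq {j : L} (hw : (posj R m j p).2 ≠ 0) : tauI R m j p =
    fderiv ℝ (fun p : Co R m => chiI (rootsL p.2.2.1 p.2.2.2.1) (posj R m j p).2⁻¹) p := by
  have h1 : DifferentiableAt ℝ (posj R m j) p :=
    ((prj j).hasFDerivAt.comp p (differentiableAt_posE p).hasFDerivAt).differentiableAt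
  have h2 : DifferentiableAt ℝ jj (posj R m j p) :=
    (H214.contDiffAt_jj hw).differentiableAt (by simp)
  have h3 : DifferentiableAt ℝ (fun q : Bs × ℂ => chiI q.1 q.2) (jj (posj R m j p)) :=
    (contDiff_chiI.contDiffAt).differentiableAt (by simp)
  exact ((h3.hasFDerivAt.comp _ h2.hasFDerivAt).comp p h1.hasFDerivAt).fderiv.symm

end Pt

end Vale.Agent.P273.H604

end
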