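import Vale.Agent.P273.H803.AsyQ
import Vale.Agent.P273.H422.GenAdm
import Vale.Agent.P273.H375.DenR
import Vale.Agent.P273.H738.Inst

/-!
# P273, crew ASY0: admissible points lie on the curve, over `XX`

`adm_U0`, `adm_sq` (the sheets), `rootsL_mem` (the roots are in `XX`), `rootsL_eq` (helper738's six
roots), `adm738`.
-/

noncomputable section

namespace Vale.Agent.P273.H604

open Set Filter Finset
open H681 (C6 XX)
open H95 (L ctr IsCl pol rts thA)
open H732 H562
open H803 (posj BaseOk)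
open H738 (rt6 kp sg6 le3 hd)

theorem th_mem' {d : Fin 3 → ℂ} (h1 : ∀ k, |(d k).re| < 1) (h2 : ∀ k, (d k).re = 0 → (d k).im < 0) :
    H828.th d ∈ XX := by
  have a0 := abs_lt.1 (h1 0)
  have a1 := abs_lt.1 (h1 1)
  have a2 := abs_lt.1 (h1 2)
  have h20 := h2 0
  have h21 := h2 1
  have h22 := h2 2
  intro i j hij hre
  fin_cases i <;> fin_cases j <;>
    first
    | (exfalso; revert hij; decide)
    | (simp [H828.th] at hre ⊢
       first
       | (exfalso; linarith)
       | (have := h20 (by linarith); linarith)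
       | (have := h21 (by linarith); linarith)
       | (have := h22 (by linarith); linarith))

/-- **the roots of the theta configurations are in `XX`** -/
theorem rootsL_mem {y α : Fin 3 → ℝ} (hy : ∀ k, 0 ≤ y k) (hα : ∀ k, -7 ≤ α k ∧ α k ≤ 1) :
    rootsL y α ∈ XX := by
  have hd : ∀ k : Fin 3, (1 / 16 : ℂ) * Complex.exp ((-(y k : ℂ) + (α k : ℂ) * Complex.I) / 2) =
      ((1 / 16 * Real.exp (-(y k) / 2) * Real.cos (α k / 2) : ℝ) : ℂ) +
        ((1 / 16 * Real.exp (-(y k) / 2) * Real.sin (α k / 2) : ℝ) : ℂ) * Complex.I := by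
    intro k
    have h1 : (-(y k : ℂ) + (α k : ℂ) * Complex.I) / 2 =
        ((-(y k) / 2 : ℝ) : ℂ) + ((α k / 2 : ℝ) : ℂ) * Complex.I := by push_cast; ring
    rw [h1, Complex.exp_add, Complex.exp_mul_I, ← Complex.ofReal_exp, ← Complex.ofReal_cos,
      ← Complex.ofReal_sin]
    push_cast
    ring
  unfold rootsL
  refine th_mem' (fun k => ?_) fun k hk => ?_
  · rw [hd k]
    simp only [Complex.add_re, Complex.ofReal_re, Complex.mul_re, Complex.I_re, mul_zero,
      Complex.ofReal_im, Complex.I_im, mul_one, sub_self, add_zero]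
    have h1 : Real.exp (-(y k) / 2) ≤ 1 := by
      rw [Real.exp_le_one_iff]
      have := hy k
      linarith
    have h2 := Real.abs_cos_le_one (α k / 2)
    have h3 := Real.exp_pos (-(y k) / 2)
    rw [abs_mul, abs_of_pos (by positivity)]
    calc 1 / 16 * Real.exp (-(y k) / 2) * |Real.cos (α k / 2)| ≤ 1 / 16 * 1 * 1 := by gcongr
      _ < 1 := by norm_num
  · rw [hd k] at hk ⊢
    simp only [Complex.add_re, Complex.ofReal_re, Complex.mul_re, Complex.I_re, mul_zero,
      Complex.ofReal_im, Complex.I_im, mul_one, sub_self, add_zero] at hk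
    simp only [Complex.add_im, Complex.ofReal_im, Complex.mul_im, Complex.I_re, mul_zero,
      Complex.ofReal_re, Complex.I_im, mul_one, add_zero, zero_add]
    have h3 := Real.exp_pos (-(y k) / 2)
    have hc : Real.cos (α k / 2) = 0 := by
      rcases mul_eq_zero.1 hk with h | h
      · exact absurd h (by positivity)
      · exact h
    obtain ⟨h4, h5⟩ := hα k
    have hpi := Real.pi_gt_three
    have hpi2 := Real.pi_lt_d2
    have hs : Real.sin (α k / 2) < 0 := by
      by_cases h6 : α k / 2 < 0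
      · by_cases h7 : -Real.pi < α k / 2
        · exact Real.sin_neg_of_neg_of_neg_pi_lt h6 h7
        · exfalso
          have h8 : 0 < Real.cos (α k / 2 + Real.pi) :=
            Real.cos_pos_of_mem_Ioo ⟨by linarith, by linarith⟩
          rw [Real.cos_add_pi, hc] at h8
          linarith
      · exfalso
        have h8 : 0 < Real.cos (α k / 2) := Real.cos_pos_of_mem_Ioo ⟨by linarith, by linarith⟩
        rw [hc] at h8
        exact lt_irrefl _ h8
    have h9 : 0 < 1 / 16 * Real.exp (-(y k) / 2) := by positivity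
    exact mul_neg_of_pos_of_neg h9 hs

section Pt

variable {R : H95.Region} {m : ∀ k, Fin (R.n k + 1)} {S : L → Bool} {N₀ : ℝ} {p : Co R m}

theorem rootsL_eq (p : Co R m) : rootsL p.2.2.1 p.2.2.2.1 = rt6 R m p := by
  have h : ∀ k : Fin 3, (1 / 16 : ℂ) *
      Complex.exp ((-(p.2.2.1 k : ℂ) + (p.2.2.2.1 k : ℂ) * Complex.I) / 2) =
      hd (1 / 16) (le3 R m) k p := by
    intro k
    unfold H738.hd
    rw [H738.le3_eq]
  funext i
  unfold rootsL rt6 H738.rts
  simp only [h]
  fin_cases i <;> simp [H828.th, kp, sg6, ctr] <;> ring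

theorem adm_five (hN : 5 ≤ N₀) (hp : Adm R m S N₀ p) (k : Fin 3) : 5 ≤ p.2.2.1 k :=
  hN.trans (hp.2.1 k)

theorem adm738 (hN : 5 ≤ N₀) (hp : Adm R m S N₀ p) : H738.Adm m p where
  inr := hp.1
  ul k := (wreg R.n m).ul_nonneg hp.1 k (by have := adm_five hN hp k; linarith)

theorem adm_mem (hN : 5 ≤ N₀) (hp : Adm R m S N₀ p) : rootsL p.2.2.1 p.2.2.2.1 ∈ XX :=
  rootsL_mem (fun k => by have := adm_five hN hp k; linarith) hp.2.2.1

theorem adm_U0 (hN : 5 ≤ N₀) (hp : Adm R m S N₀ p) : emb R m p ∈ H975.U0 R S := by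
  have hy1 : Real.exp (-5) < 1 / 64 := by
    rw [Real.exp_neg, one_div]
    refine inv_strictAnti₀ (by norm_num) ?_
    have h := Real.exp_one_gt_d9
    calc (64 : ℝ) < 2.7 ^ 5 := by norm_num
      _ ≤ Real.exp 1 ^ 5 := by gcongr; linarith
      _ = Real.exp 5 := by rw [← Real.exp_nat_mul]; norm_num
  refine H975.scl_mem_U0 (y0 := 5) (K0 := H975.zone R S (1 / 64) 11) (by linarith)
    (H975.zoneOK le_rfl (by linarith) (by linarith) (by norm_num)) ?_
  exact H975.psi_mem_CR m hp.1 (by norm_num) (adm_five hN hp) hp.2.2.2.1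

/-- **the marks are on the curve** -/
theorem adm_sq (hS : FarOk R S) (hN : 5 ≤ N₀) (hp : Adm R m S N₀ p) (j : L) :
    shE R m S p j ^ 2 = pol (S j) (rts (rootsL p.2.2.1 p.2.2.2.1)) (R.pos (emb R m p) j) := by
  rw [rootsL_eq, H738.rts_rt6]
  exact H375.sht_sq R hS j (adm_U0 hN hp)

theorem adm_ne (hp : Adm R m S N₀ p) (j : L) : shE R m S p j ≠ 0 := hp.2.2.2.2 j

end Pt

end Vale.Agent.P273.H604

end
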