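import Vale.Agent.P273.H604.CutBd

/-!
# P273, item (c): the cut-off at a root in weighted form, the primitives centred at `e`
-/

namespace Vale.Agent.P273.H604

open scoped ContDiff Topology RealInnerProductSpace
open Set Filter MeasureTheory Finset
open H214

noncomputable section

theorem inner_eq_re_div {t : ℂ} (ht : t ≠ 0) (s : ℂ) : ⟪t, s⟫ = ‖t‖ ^ 2 * (s / t).re := by
  rw [Complex.inner, Complex.div_re, ← Complex.normSq_eq_norm_sq]
  have h : Complex.normSq t ≠ 0 := by rwa [Ne, Complex.normSq_eq_zero]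
  field_simp
  simp only [Complex.mul_re, Complex.conj_re, Complex.conj_im]
  ring

/-- The exact differential of the argument of the cut-off at a root. -/
theorem fderiv_fW {b : Bs} (hb : b ∈ Cf) (j : Fin 6) {x : ℂ} (hx : x ≠ b j) (β : Bs) (ζ : ℂ) :
    fderiv ℝ (fW j) (b, x) (β, ζ) = -(128 * ‖x - b j‖ ^ 2 * ∑ i ∈ univ.erase j,
      (‖b i - b j‖ ^ 2)⁻¹ * ((ζ - β j) / (x - b j) - (β i - β j) / (b i - b j)).re) := by
  have hd := differentiableAt_fW hb j x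
  set u : Fin 6 → ℂ := fun i => b i - b j with hu
  set v : Fin 6 → ℂ := fun i => β i - β j with hv
  set t : ℂ := x - b j with ht
  set t' : ℂ := ζ - β j with ht'
  have ht0 : t ≠ 0 := sub_ne_zero.2 hx
  have hline : ∀ (c c' : ℂ), HasDerivAt (fun s : ℝ => ‖c + s * c'‖ ^ 2) (2 * ⟪c, c'⟫) 0 := by
    intro c c'
    have h0 : HasDerivAt (fun s : ℝ => c + (s : ℂ) * c') c' 0 := by
      have h5 : HasDerivAt (fun s : ℝ => (s : ℂ) * c') (1 * c') 0 :=
        (Complex.ofRealCLM.hasDerivAt (x := (0 : ℝ))).mul_const c'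
      simpa using h5.const_add c
    have h6 := hasDerivAt_normSq h0
    simpa using h6
  have hu0 : ∀ i ∈ univ.erase j, u i ≠ 0 := fun i hi =>
    sub_ne_zero.2 (Function.Injective.ne hb (Finset.mem_erase.1 hi).1)
  have hune : ∀ i ∈ univ.erase j, ‖u i‖ ^ 2 ≠ 0 := by
    intro i hi
    have h5 := hu0 i hi
    positivity
  have hinv : ∀ i ∈ univ.erase j, HasDerivAt (fun s : ℝ => (‖u i + s * v i‖ ^ 2)⁻¹)
      (-(2 * ⟪u i, v i⟫) / (‖u i‖ ^ 2) ^ 2) 0 := by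
    intro i hi
    have h5 := (hline (u i) (v i)).fun_inv (by simpa using hune i hi)
    simpa using h5
  have hsum : HasDerivAt (fun s : ℝ => ∑ i ∈ univ.erase j, (‖u i + s * v i‖ ^ 2)⁻¹)
      (∑ i ∈ univ.erase j, -(2 * ⟪u i, v i⟫) / (‖u i‖ ^ 2) ^ 2) 0 := HasDerivAt.fun_sum hinv
  have hprod := (hline t t').mul hsum
  have hder : HasDerivAt (fun s : ℝ => fW j ((b, x) + s • (β, ζ)))
      (-(128 * ‖t‖ ^ 2 * ∑ i ∈ univ.erase j, (‖u i‖ ^ 2)⁻¹ * (t' / t - v i / u i).re)) 0 := by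
    have h5 : (fun s : ℝ => fW j ((b, x) + s • (β, ζ))) = fun s : ℝ =>
        2 - 64 * (‖t + s * t'‖ ^ 2 * ∑ i ∈ univ.erase j, (‖u i + s * v i‖ ^ 2)⁻¹) := by
      funext s
      rw [fW_eq]
      congr 3
      · congr 2
        simp only [Prod.fst_add, Prod.snd_add, Prod.smul_fst, Prod.smul_snd, Pi.add_apply,
          Pi.smul_apply, Complex.real_smul, ht, ht']
        ring
      · refine Finset.sum_congr rfl fun i _ => ?_
        congr 3
        simp only [Prod.fst_add, Prod.smul_fst, Pi.add_apply, Pi.smul_apply, Complex.real_smul,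
          hu, hv]
        ring
    rw [h5]
    have h6 := (hprod.const_mul 64).const_sub 2
    refine h6.congr_deriv ?_
    simp only [Complex.ofReal_zero, zero_mul, add_zero]
    rw [inner_eq_re_div ht0, Finset.mul_sum, Finset.mul_sum, Finset.mul_sum,
      ← Finset.sum_add_distrib, Finset.mul_sum, neg_inj]
    refine Finset.sum_congr rfl fun i hi => ?_
    have h7 := hu0 i hi
    have h8 : (‖u i‖ : ℝ) ≠ 0 := norm_ne_zero_iff.2 h7
    rw [inner_eq_re_div h7, Complex.sub_re]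
    field_simp
    ring
  exact fderiv_line hd hder

/-- The weights add up to one. -/
theorem sum_weights {b : Bs} (hb : b ∈ Cf) (j : Fin 6) :
    ∑ i ∈ univ.erase j, hh b j * (‖b i - b j‖ ^ 2)⁻¹ = 1 := by
  rw [← Finset.mul_sum]
  unfold hh
  exact inv_mul_cancel₀ (sum_pos_of_inj hb j).ne'

/-- **(F3w)** The cut-off at a root, weighted form. -/
theorem abs_fderiv_chiW_le_weighted {b : Bs} (hb : b ∈ Cf) (j : Fin 6) {x : ℂ} (hx : x ≠ b j)
    (β : Bs) (ζ : ℂ) :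
    |fderiv ℝ (fun q : Bs × ℂ => chiW q.1 j q.2) (b, x) (β, ζ)| ≤
      4 * Kst * ∑ i ∈ univ.erase j, hh b j * (‖b i - b j‖ ^ 2)⁻¹ *
        ‖(ζ - β j) / (x - b j) - (β i - β j) / (b i - b j)‖ := by
  have hhp := hh_pos hb j
  have hK := Kst_pos
  set Sw : ℝ := ∑ i ∈ univ.erase j, hh b j * (‖b i - b j‖ ^ 2)⁻¹ *
        ‖(ζ - β j) / (x - b j) - (β i - β j) / (b i - b j)‖ with hS
  have hS0 : 0 ≤ Sw := Finset.sum_nonneg fun i _ => by positivity
  simp only [chiW_eq]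
  rw [fderiv_st_comp (differentiableAt_fW hb j x), abs_mul]
  by_cases h : fW j (b, x) ≤ 0
  · rw [deriv_st_eq_zero (Or.inl h), abs_zero, zero_mul]
    positivity
  · push Not at h
    have h4 : 64 * ‖x - b j‖ ^ 2 ≤ 2 * hh b j := by
      have h6 : fW j (b, x) = 2 - 64 * ‖x - b j‖ ^ 2 / hh b j := rfl
      have h7 : 64 * ‖x - b j‖ ^ 2 / hh b j ≤ 2 := by linarith
      rwa [div_le_iff₀ hhp] at h7
    have h5 := abs_deriv_st_le (fW j (b, x))
    have h6 : |fderiv ℝ (fW j) (b, x) (β, ζ)| ≤ 4 * Sw := by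
      rw [fderiv_fW hb j hx, abs_neg, abs_mul, abs_of_nonneg (by positivity)]
      have h7 : |∑ i ∈ univ.erase j, (‖b i - b j‖ ^ 2)⁻¹ *
          ((ζ - β j) / (x - b j) - (β i - β j) / (b i - b j)).re| ≤ Sw / hh b j := by
        rw [hS, Finset.sum_div]
        refine (Finset.abs_sum_le_sum_abs _ _).trans (Finset.sum_le_sum fun i _ => ?_)
        rw [abs_mul, abs_of_nonneg (by positivity : (0 : ℝ) ≤ (‖b i - b j‖ ^ 2)⁻¹)]
        have h8 := Complex.abs_re_le_norm ((ζ - β j) / (x - b j) - (β i - β j) / (b i - b j))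
        calc (‖b i - b j‖ ^ 2)⁻¹ * |((ζ - β j) / (x - b j) - (β i - β j) / (b i - b j)).re| ≤
              (‖b i - b j‖ ^ 2)⁻¹ * ‖(ζ - β j) / (x - b j) - (β i - β j) / (b i - b j)‖ := by
              gcongr
          _ = _ := by field_simp
      calc 128 * ‖x - b j‖ ^ 2 * |∑ i ∈ univ.erase j, (‖b i - b j‖ ^ 2)⁻¹ *
          ((ζ - β j) / (x - b j) - (β i - β j) / (b i - b j)).re| ≤
            (4 * hh b j) * (Sw / hh b j) := by
            refine mul_le_mul (by linarith) h7 (abs_nonneg _) (by positivity)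
        _ = 4 * Sw := by field_simp
    calc _ ≤ Kst * (4 * Sw) := mul_le_mul h5 h6 (abs_nonneg _) hK.le
      _ = _ := by ring

/-! ### the primitives centred at `e` -/

theorem Qj_comb (j : Fin 6) {p : Bs × ℂ} (hp : p ∈ Dj j) (e : ℂ) :
    Qj 1 j p - e * Qj 0 j p =
      2 * ∫ r in (0 : ℝ)..1, (seg j p r - e) * (Pj j p * intg 0 j (p, r)) := by
  have hc : ∀ k, ContinuousOn (fun r : ℝ => intg k j (p, r)) (Set.uIcc 0 1) := by
    intro k
    rw [Set.uIcc_of_le zero_le_one]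
    refine (contDiffOn_intg k j).continuousOn.comp (f := fun r : ℝ => (p, r)) (by fun_prop) ?_
    intro r hr
    exact seg_mem hp hr
  have hi : ∀ k, IntervalIntegrable (fun r : ℝ => intg k j (p, r)) volume 0 1 := fun k =>
    (hc k).intervalIntegrable
  unfold Qj
  have h1 : ∀ r : ℝ, (seg j p r - e) * (Pj j p * intg 0 j (p, r)) =
      Pj j p * (intg 1 j (p, r) - e * intg 0 j (p, r)) := by
    intro r
    simp only [intg]
    ring
  simp_rw [h1]
  rw [intervalIntegral.integral_const_mul, intervalIntegral.integral_sub (hi 1)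
    ((hi 0).const_mul e), intervalIntegral.integral_const_mul]
  ring

theorem norm_Qj_comb_le (j : Fin 6) {p : Bs × ℂ} (hp : p ∈ Dj j) (e : ℂ) :
    ‖Qj 1 j p - e * Qj 0 j p‖ ≤ 32 * max ‖p.1 j - e‖ ‖p.2 - e‖ := by
  rw [Qj_comb j hp e, norm_mul]
  have h2 : ‖∫ r in (0 : ℝ)..1, (seg j p r - e) * (Pj j p * intg 0 j (p, r))‖ ≤
      (16 * max ‖p.1 j - e‖ ‖p.2 - e‖) * |1 - 0| := by
    refine intervalIntegral.norm_integral_le_of_norm_le_const fun r hr => ?_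
    rw [Set.uIoc_of_le zero_le_one] at hr
    rw [norm_mul]
    have h3 := norm_intg_le 0 hp ⟨hr.1.le, hr.2⟩
    rw [pow_zero, mul_one] at h3
    have h4 : ‖seg j p r - e‖ ≤ max ‖p.1 j - e‖ ‖p.2 - e‖ := by
      have h5 : seg j p r - e = (1 - (r : ℂ) ^ 2) * (p.1 j - e) + (r : ℂ) ^ 2 * (p.2 - e) := by
        unfold seg; ring
      have h6 : 0 ≤ r ^ 2 := sq_nonneg r
      have h7 : r ^ 2 ≤ 1 := pow_le_one₀ hr.1.le hr.2
      have h8 : ‖(1 : ℂ) - (r : ℂ) ^ 2‖ = 1 - r ^ 2 := by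
        have : (1 : ℂ) - (r : ℂ) ^ 2 = ((1 - r ^ 2 : ℝ) : ℂ) := by push_cast; ring
        rw [this, Complex.norm_real, Real.norm_eq_abs, abs_of_nonneg (by linarith)]
      have h9 : ‖(r : ℂ) ^ 2‖ = r ^ 2 := by
        rw [norm_pow, Complex.norm_real, Real.norm_eq_abs, sq_abs]
      rw [h5]
      calc _ ≤ ‖(1 - (r : ℂ) ^ 2) * (p.1 j - e)‖ + ‖(r : ℂ) ^ 2 * (p.2 - e)‖ := norm_add_le _ _
        _ = (1 - r ^ 2) * ‖p.1 j - e‖ + r ^ 2 * ‖p.2 - e‖ := by rw [norm_mul, norm_mul, h8, h9]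
        _ ≤ (1 - r ^ 2) * max ‖p.1 j - e‖ ‖p.2 - e‖ + r ^ 2 * max ‖p.1 j - e‖ ‖p.2 - e‖ := by
            have := le_max_left ‖p.1 j - e‖ ‖p.2 - e‖
            have := le_max_right ‖p.1 j - e‖ ‖p.2 - e‖
            have h10 : 0 ≤ 1 - r ^ 2 := by linarith
            gcongr
        _ = _ := by ring
    have h11 : ‖Pj j p * intg 0 j (p, r)‖ ≤ 16 := by rw [norm_mul]; exact h3
    calc _ ≤ max ‖p.1 j - e‖ ‖p.2 - e‖ * 16 :=
          mul_le_mul h4 h11 (norm_nonneg _) ((norm_nonneg _).trans h4)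
      _ = _ := by ring
  have h3 : ‖(2 : ℂ)‖ = 2 := by simp
  rw [h3]
  simp only [sub_zero, abs_one, mul_one] at h2
  linarith

/-- `‖x - b j‖ / ‖y‖ ≤ 1 / δ²` on the disc, with a partner root. -/
theorem norm_div_le_of {b : Bs} {j i₀ : Fin 6} (hi : i₀ ≠ j) {x y : ℂ} (h : (b, x) ∈ Dj j)
    (hx : x ≠ b j) (hy : y ^ 2 = ff (b, x)) {δ : ℝ} (hδ : 0 < δ)
    (hd : ∀ i, i ≠ j → i ≠ i₀ → 2 * δ ≤ ‖b i - b j‖) : ‖x - b j‖ / ‖y‖ ≤ 1 / δ ^ 2 := by
  have h1 := sq_div_le h hy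
  have hxp : 0 < ‖x - b j‖ := norm_pos_iff.2 (sub_ne_zero.2 hx)
  have hmem : i₀ ∈ univ.erase j := Finset.mem_erase.2 ⟨hi, Finset.mem_univ _⟩
  have h2 : ‖x - b j‖ * δ ^ 4 ≤ ∏ i ∈ univ.erase j, (‖b i - b j‖ / 2) := by
    rw [← Finset.mul_prod_erase _ _ hmem]
    have h3 : ‖x - b j‖ ≤ ‖b i₀ - b j‖ / 2 := by
      have := h i₀ hi
      simp only at this
      linarith
    have h4 : δ ^ 4 ≤ ∏ i ∈ (univ.erase j).erase i₀, (‖b i - b j‖ / 2) := by
      have h5 : ((univ.erase j).erase i₀).card = 4 := by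
        rw [Finset.card_erase_of_mem hmem, Finset.card_erase_of_mem (Finset.mem_univ _)]
        simp
      calc δ ^ 4 = ∏ _i ∈ (univ.erase j).erase i₀, δ := by rw [Finset.prod_const, h5]
        _ ≤ _ := by
            refine Finset.prod_le_prod (fun _ _ => hδ.le) fun i hi' => ?_
            have h6 := Finset.mem_erase.1 hi'
            have := hd i (Finset.mem_erase.1 h6.2).1 h6.1
            linarith
    exact mul_le_mul h3 h4 (by positivity) (by positivity)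
  have h3 : (‖x - b j‖ / ‖y‖) ^ 2 ≤ (1 / δ ^ 2) ^ 2 := by
    refine h1.trans ?_
    have h4 : 0 < ‖x - b j‖ * δ ^ 4 := by positivity
    have h5 : (1 / δ ^ 2) ^ 2 = 1 / δ ^ 4 := by field_simp
    rw [h5, div_le_div_iff₀ (lt_of_lt_of_le h4 h2) (by positivity)]
    linarith
  exact (pow_le_pow_iff_left₀ (by positivity) (by positivity) two_ne_zero).1 h3

/-- **(C)** `∫ (z - e) dz / y` from a root. -/
theorem norm_EWc_comb_le {b : Bs} {j i₀ : Fin 6} (hi : i₀ ≠ j) {x y : ℂ} (h : (b, x) ∈ Dj j)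
    (hx : x ≠ b j) (hy : y ^ 2 = ff (b, x)) {δ : ℝ} (hδ : 0 < δ)
    (hd : ∀ i, i ≠ j → i ≠ i₀ → 2 * δ ≤ ‖b i - b j‖) (e : ℂ) :
    ‖EWc 1 b j x y - e * EWc 0 b j x y‖ ≤ 32 / δ ^ 2 * max ‖b j - e‖ ‖x - e‖ := by
  have h1 : EWc 1 b j x y - e * EWc 0 b j x y =
      (x - b j) / y * (Qj 1 j (b, x) - e * Qj 0 j (b, x)) := by
    unfold EWc; ring
  rw [h1, norm_mul, norm_div]
  have h2 := norm_div_le_of hi h hx hy hδ hd
  have h3 := norm_Qj_comb_le j h e
  calc _ ≤ 1 / δ ^ 2 * (32 * max ‖b j - e‖ ‖x - e‖) :=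
        mul_le_mul h2 h3 (norm_nonneg _) (by positivity)
    _ = _ := by ring

/-- **(C)** `∫ (a₀ + a₁ z) dz / y` from a root: small if `a₀ + a₁ e` is small. -/
theorem norm_EW_comb_le {b : Bs} {j i₀ : Fin 6} (hi : i₀ ≠ j) {x y : ℂ} (h : (b, x) ∈ Dj j)
    (hx : x ≠ b j) (hy : y ^ 2 = ff (b, x)) {δ : ℝ} (hδ : 0 < δ)
    (hd : ∀ i, i ≠ j → i ≠ i₀ → 2 * δ ≤ ‖b i - b j‖) (e a0 a1 : ℂ) :
    ‖a0 * EWc 0 b j x y + a1 * EWc 1 b j x y‖ ≤
      32 / δ ^ 2 * (‖a0 + a1 * e‖ + ‖a1‖ * max ‖b j - e‖ ‖x - e‖) := by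
  have h1 : a0 * EWc 0 b j x y + a1 * EWc 1 b j x y =
      (a0 + a1 * e) * EWc 0 b j x y + a1 * (EWc 1 b j x y - e * EWc 0 b j x y) := by ring
  have h2 : ‖EWc 0 b j x y‖ ≤ 32 / δ ^ 2 := by
    have h3 := norm_EWc_le 0 h y
    rw [pow_zero, mul_one] at h3
    refine h3.trans ?_
    have h4 := norm_div_le_of hi h hx hy hδ hd
    calc _ ≤ 1 / δ ^ 2 * 32 := by gcongr
      _ = _ := by ring
  have h3 := norm_EWc_comb_le hi h hx hy hδ hd e
  rw [h1]
  refine (norm_add_le _ _).trans ?_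
  rw [norm_mul, norm_mul]
  calc _ ≤ ‖a0 + a1 * e‖ * (32 / δ ^ 2) + ‖a1‖ * (32 / δ ^ 2 * max ‖b j - e‖ ‖x - e‖) := by
        gcongr
    _ = _ := by ring

end

end Vale.Agent.P273.H604
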