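import Vale.Agent.P273.H803.NeckForm
import Vale.Agent.P273.H604.AdmPt
import Vale.Agent.P273.H604.CutW
import Vale.Agent.P273.H214.OneOf

/-!
# P273, crew ASY0, item (N1): the cut-offs at the roots, marks of the necks

* `lgE F` : the flat forms pulled back to the region charts (chart `x`);
* `loc_disc` : a neck mark in the disc of a root is in the middle of its neck;
* `lgP_neck` : the form after the cut-offs.
-/

noncomputable section

namespace Vale.Agent.P273.H604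

open Set Filter Finset
open H214 (Bs ff hh hh_le hh_pos chiW chiW_eq_zero chiW_eq_one chiW_nonneg chiW_le_one EWv FlatFam
  FlatOn oneOf etaP etaC etaC_false Cf sub_XX)
open H681 (C6 XX)
open H95 (L ctr IsCl pol rts thA)
open H732 H562
open H803 (LegF posj lgP BaseOk NeckForm)
open H973 (prj)
open H738 (rt6 kp sg6 le3 hd mX mY zz dd qq)

/-- the flat forms in the region charts (chart `x`) -/
def lgE (F : FlatFam) : LegF := fun R m S j ξ p =>
  ((F.η ξ (rootsL p.2.2.1 p.2.2.2.1) (posj R m j p).2 (shE R m S p j)).comp (prj j)).comp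
    (fderiv ℝ (posE R m) p)

/-- the differential of the cut-off at the root `i` -/
def tauN (R : H95.Region) (m : ∀ k, Fin (R.n k + 1)) (i : Fin 6) (j : L) (p : Co R m) :
    Co R m →L[ℝ] ℝ :=
  (fderiv ℝ (fun q : Bs × ℂ => chiW q.1 i q.2) (posj R m j p)).comp (fderiv ℝ (posj R m j) p)

section Geo

variable {R : H95.Region} {m : ∀ k, Fin (R.n k + 1)} {S : L → Bool} {N₀ : ℝ} {p : Co R m}

/-- the partner of a root -/
theorem partner (i : Fin 6) : ∃ i₀ : Fin 6, i₀ ≠ i ∧ kp i₀ = kp i ∧ sg6 i₀ = -sg6 i := by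
  fin_cases i
  · exact ⟨1, by decide, by decide, by simp [sg6]⟩
  · exact ⟨0, by decide, by decide, by simp [sg6]⟩
  · exact ⟨3, by decide, by decide, by simp [sg6]⟩
  · exact ⟨2, by decide, by decide, by simp [sg6]⟩
  · exact ⟨5, by decide, by decide, by simp [sg6]⟩
  · exact ⟨4, by decide, by decide, by simp [sg6]⟩

theorem hh_le_pair (hb : rt6 R m p ∈ Cf) (i : Fin 6) :
    hh (rt6 R m p) i ≤ 4 * ‖hd (1 / 16) (le3 R m) (kp i) p‖ ^ 2 := by
  obtain ⟨i₀, h1, h2, h3⟩ := partner i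
  have h := hh_le hb h1
  have e : rt6 R m p i₀ - rt6 R m p i = -(2 * (sg6 i * hd (1 / 16) (le3 R m) (kp i) p)) := by
    unfold rt6 H738.rts; rw [h2, h3]; ring
  rw [e, norm_neg, norm_mul, norm_mul, H738.norm_sig (H738.sg6_sq i)] at h
  have h4 : ‖(2 : ℂ)‖ = 2 := by simp
  rw [h4] at h
  linarith

/-- **location**: a neck mark in the disc of a root is in the middle of the neck -/
theorem loc_disc (hN : 5 ≤ N₀) (hp : Adm R m S N₀ p) {j : L} {k : Fin 3}
    (h : R.pl j = Sum.inl k) {i : Fin 6}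
    (hi : 32 * ‖(posj R m j p).2 - rootsL p.2.2.1 p.2.2.2.1 i‖ ^ 2 <
      hh (rootsL p.2.2.1 p.2.2.2.1) i) :
    kp i = k ∧ |2 * wreg.dep m p k (rkF R h) - p.2.2.1 k| ≤ 2 := by
  have hb := sub_XX (adm_mem hN hp)
  have A := adm738 hN hp
  rw [rootsL_eq] at hi hb
  have h1 := hh_le_pair hb i
  have hx : (posj R m j p).2 = ctr k + 1 / 16 * zz (mX m h) (mY m h) p :=
    H738.pos_ppt_neck m h p
  rw [hx] at hi
  have hdle := A.norm_hd_le (kp i)
  by_cases hk : kp i = k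
  · refine ⟨hk, ?_⟩
    have hσ := H738.sg6_sq i
    have hdd : hd (1 / 16) (le3 R m) (kp i) p = 1 / 16 * dd (mX m h) (mY m h) p := by
      unfold H738.hd H738.dd
      rw [hk, H738.mX_add_mY m h]
    have e1 : ctr k + 1 / 16 * zz (mX m h) (mY m h) p - rt6 R m p i =
        1 / 16 * (zz (mX m h) (mY m h) p - sg6 i * dd (mX m h) (mY m h) p) := by
      unfold rt6 H738.rts
      rw [hdd, hk]
      ring
    have n16 : ‖(1 / 16 : ℂ)‖ = 1 / 16 := by norm_num
    set X := ‖Complex.exp (mX m h p)‖ with hX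
    set q := qq (mX m h) (mY m h) p with hq
    have hX0 : 0 < X := norm_pos_iff.2 (Complex.exp_ne_zero _)
    have hq0 : 0 < ‖q‖ := norm_pos_iff.2 (H738.qq_ne _ _ _)
    have e2 : ‖ctr k + 1 / 16 * zz (mX m h) (mY m h) p - rt6 R m p i‖ =
        1 / 16 * (X * ‖1 - sg6 i * q‖ ^ 2 / 2) := by
      rw [e1, norm_mul, n16, H738.norm_geo _ _ hσ]
    have e3 : ‖hd (1 / 16) (le3 R m) (kp i) p‖ = 1 / 16 * (X * ‖q‖) := by
      rw [hdd, norm_mul, n16, ← H738.X_mul_qq, norm_mul]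
    rw [e2] at hi
    rw [e3] at h1
    have h2 : 8 * (X * ‖1 - sg6 i * q‖ ^ 2 / 2) ^ 2 < (X * ‖q‖) ^ 2 := by nlinarith
    have h3 : 2 * (‖1 - sg6 i * q‖ ^ 2) ^ 2 < ‖q‖ ^ 2 := by
      have h4 : X ^ 2 * (2 * (‖1 - sg6 i * q‖ ^ 2) ^ 2) < X ^ 2 * ‖q‖ ^ 2 := by
        calc X ^ 2 * (2 * (‖1 - sg6 i * q‖ ^ 2) ^ 2) =
            8 * (X * ‖1 - sg6 i * q‖ ^ 2 / 2) ^ 2 := by ring
          _ < _ := h2
          _ = _ := by ring
      exact lt_of_mul_lt_mul_left h4 (by positivity)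
    have h5 : ‖1 - sg6 i * q‖ ^ 2 ≤ 3 / 4 * ‖q‖ := by
      by_contra hc
      push Not at hc
      have : (3 / 4 * ‖q‖) ^ 2 < (‖1 - sg6 i * q‖ ^ 2) ^ 2 :=
        pow_lt_pow_left₀ hc (by positivity) two_ne_zero
      nlinarith
    have h6 : |1 - ‖q‖| ≤ ‖1 - sg6 i * q‖ := by
      have := abs_norm_sub_norm_le (1 : ℂ) (sg6 i * q)
      rwa [norm_one, norm_mul, H738.norm_sig hσ, one_mul] at this
    have h7 : (1 - ‖q‖) ^ 2 ≤ 3 / 4 * ‖q‖ := by
      rw [← sq_abs]
      exact (pow_le_pow_left₀ (abs_nonneg _) h6 2).trans h5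
    have h8 : ‖q‖ ≤ 27 / 10 := by nlinarith
    have h9 : 10 / 27 ≤ ‖q‖ := by nlinarith
    have hqe := H738.norm_qq_mark h p
    rw [← hq] at hqe
    have he := Real.exp_one_gt_d9
    have hdep : wreg.dep m p k (H738.rkF R h) = wreg.dep m p k (rkF R h) := rfl
    rw [hdep] at hqe
    set t := wreg.dep m p k (rkF R h) - p.2.2.1 k / 2 with ht
    have h10 : t ≤ 1 := by
      by_contra hc
      push Not at hc
      have := Real.exp_lt_exp.2 hc
      linarith
    have h11 : -1 ≤ t := by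
      by_contra hc
      push Not at hc
      have h12 := Real.exp_lt_exp.2 hc
      have h13 : Real.exp (-1) < 10 / 27 := by
        rw [Real.exp_neg, inv_lt_comm₀ (Real.exp_pos _) (by norm_num)]
        norm_num
        linarith
      linarith
    rw [abs_le]
    constructor <;> linarith
  · exfalso
    have h2 := H738.far_le A h hk
    have h3 : ‖hd (1 / 16) (le3 R m) (kp i) p‖ ^ 2 ≤ (1 / 16) ^ 2 := by gcongr
    nlinarith

/-- the discs of two roots are disjoint -/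
theorem disc_unique {b : Bs} (hb : b ∈ Cf) {i i' : Fin 6} {x : ℂ}
    (h : 32 * ‖x - b i‖ ^ 2 < hh b i) (h' : 32 * ‖x - b i'‖ ^ 2 < hh b i') : i = i' := by
  by_contra hne
  have h1 := hh_le hb (i := i') (j := i) (Ne.symm hne)
  have h2 := hh_le hb (i := i) (j := i') hne
  have h3 : ‖b i' - b i‖ ≤ ‖x - b i‖ + ‖x - b i'‖ := by
    have : b i' - b i = (x - b i) - (x - b i') := by ring
    rw [this]
    exact norm_sub_le _ _
  have h4 : ‖b i - b i'‖ = ‖b i' - b i‖ := norm_sub_rev _ _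
  rw [h4] at h2
  have h5 : 0 ≤ ‖b i' - b i‖ := norm_nonneg _
  have h6 : ‖b i' - b i‖ ^ 2 ≤ 2 * (‖x - b i‖ ^ 2 + ‖x - b i'‖ ^ 2) := by
    have := pow_le_pow_left₀ h5 h3 2
    nlinarith [sq_nonneg (‖x - b i‖ - ‖x - b i'‖)]
  nlinarith [sq_nonneg ‖b i' - b i‖]

/-! ### differentiability of the chart -/

theorem differentiableAt_posE (p : Co R m) : DifferentiableAt ℝ (posE R m) p := by
  have h1 : DifferentiableAt ℝ (fun p : Co R m => rootsL p.2.2.1 p.2.2.2.1) p := by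
    have e : (fun p : Co R m => rootsL p.2.2.1 p.2.2.2.1) = fun p => rt6 R m p :=
      funext rootsL_eq
    rw [e, differentiableAt_pi]
    exact fun i => (H738.hasFDerivAt_rt6 R m p i).differentiableAt
  have h2 : DifferentiableAt ℝ (fun p : Co R m => R.pos (emb R m p)) p := by
    rw [differentiableAt_pi]
    intro j
    rcases hj : R.pl j with k | s
    · have e : (fun p : Co R m => R.pos (emb R m p) j) =
          fun p => ctr k + 1 / 16 * zz (mX m hj) (mY m hj) p :=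
        funext fun p => H738.pos_ppt_neck m hj p
      rw [e]
      exact (((H738.hasFDerivAt_zz (mX m hj) (mY m hj) p).const_mul _).const_add _).differentiableAt
    · have e : (fun p : Co R m => R.pos (emb R m p) j) =
          fun p : Co R m => p.2.2.2.2 ⟨j, by simp [hj]⟩ :=
        funext fun p => H738.pos_ppt_core m hj p
      rw [e]
      fun_prop
  exact h1.prodMk h2

theorem fderiv_posj (p : Co R m) (j : L) :
    fderiv ℝ (posj R m j) p = (prj j).comp (fderiv ℝ (posE R m) p) :=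
  ((prj j).hasFDerivAt.comp p (differentiableAt_posE p).hasFDerivAt).fderiv

/-! ### (P1) the form after the cut-offs -/

theorem farOk_neck (hS : FarOk R S) {j : L} {k : Fin 3} (h : R.pl j = Sum.inl k) :
    S j = false := by
  by_contra hc
  have := hS j (by simpa using hc)
  rw [h] at this
  simp at this

theorem norm_pos_le (hN : 5 ≤ N₀) (hp : Adm R m S N₀ p) {j : L} {k : Fin 3}
    (h : R.pl j = Sum.inl k) : ‖(posj R m j p).2‖ ≤ 8 := by
  have hx : (posj R m j p).2 = ctr k + 1 / 16 * zz (mX m h) (mY m h) p :=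
    H738.pos_ppt_neck m h p
  rw [hx]
  have h1 := norm_add_le (ctr k) (1 / 16 * zz (mX m h) (mY m h) p)
  have h2 := H738.norm_czz_le (adm738 hN hp) h
  have h3 := H975.norm_ctr_le k
  linarith

theorem neck_sq (hS : FarOk R S) (hN : 5 ≤ N₀) (hp : Adm R m S N₀ p) {j : L} {k : Fin 3}
    (h : R.pl j = Sum.inl k) :
    shE R m S p j ^ 2 = ff (rootsL p.2.2.1 p.2.2.2.1, (posj R m j p).2) := by
  have h1 := adm_sq hS hN hp j
  rw [farOk_neck hS h, H214.pol_false] at h1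
  exact h1

variable (F : FlatFam) {ξ : Fin 6 → ℝ}

theorem lgP_neck_eq (hS : FarOk R S) (hN : 5 ≤ N₀) (hp : Adm R m S N₀ p) {j : L} {k : Fin 3}
    (h : R.pl j = Sum.inl k) (hξ : IsCl ξ) (T : Finset (Fin 6))
    (hT : ∀ i ∉ T, hh (rootsL p.2.2.1 p.2.2.2.1) i ≤
      32 * ‖(posj R m j p).2 - rootsL p.2.2.1 p.2.2.2.1 i‖ ^ 2) :
    lgP (oneOf F) R m S j ξ p =
      (1 - ∑ i ∈ T, chiW (rootsL p.2.2.1 p.2.2.2.1) i (posj R m j p).2) • lgE F R m S j ξ p -
        ∑ i ∈ T, (F.A ξ (rootsL p.2.2.1 p.2.2.2.1)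
          (EWv (rootsL p.2.2.1 p.2.2.2.1) i (posj R m j p).2 (shE R m S p j))) • tauN R m i j p := by
  have hbX := adm_mem hN hp
  have hb := sub_XX hbX
  have hsq := neck_sq hS hN hp h
  have hne : ff (rootsL p.2.2.1 p.2.2.2.1, (posj R m j p).2) ≠ 0 := by
    rw [← hsq]
    exact pow_ne_zero 2 (adm_ne hp j)
  have hx8 : ‖(posj R m j p).2‖ ≤ Rr (rootsL p.2.2.1 p.2.2.2.1) :=
    (norm_pos_le hN hp h).trans (eight_le_Rr _)
  have hI := chiI_eq_zero hx8
  have hI' := fderiv_chiI_eq_zero (Or.inl hx8)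
  have hW : ∀ i ∉ T, chiW (rootsL p.2.2.1 p.2.2.2.1) i (posj R m j p).2 = 0 := fun i hi =>
    chiW_eq_zero hb (hT i hi)
  have hW' : ∀ i ∉ T, fderiv ℝ (fun q : Bs × ℂ => chiW q.1 i q.2)
      (rootsL p.2.2.1 p.2.2.2.1, (posj R m j p).2) = 0 := fun i hi =>
    fderiv_chiW_eq_zero hb (Or.inr (hT i hi))
  have hform := etaP_formula (F.flat ξ hξ) hbX hne hsq
  rw [hI, hI'] at hform
  have e1 : ∑ i, chiW (rootsL p.2.2.1 p.2.2.2.1) i (posj R m j p).2 =
      ∑ i ∈ T, chiW (rootsL p.2.2.1 p.2.2.2.1) i (posj R m j p).2 :=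
    (Finset.sum_subset (Finset.subset_univ T) fun i _ hi => hW i hi).symm
  have e2 : ∑ i, (fderiv ℝ (fun q : Bs × ℂ => chiW q.1 i q.2)
        (rootsL p.2.2.1 p.2.2.2.1, (posj R m j p).2)).smulRight
        (F.A ξ (rootsL p.2.2.1 p.2.2.2.1)
          (EWv (rootsL p.2.2.1 p.2.2.2.1) i (posj R m j p).2 (shE R m S p j))) =
      ∑ i ∈ T, (fderiv ℝ (fun q : Bs × ℂ => chiW q.1 i q.2)
        (rootsL p.2.2.1 p.2.2.2.1, (posj R m j p).2)).smulRight
        (F.A ξ (rootsL p.2.2.1 p.2.2.2.1)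
          (EWv (rootsL p.2.2.1 p.2.2.2.1) i (posj R m j p).2 (shE R m S p j))) := by
    refine (Finset.sum_subset (Finset.subset_univ T) fun i _ hi => ?_).symm
    rw [hW' i hi]
    refine ContinuousLinearMap.ext fun v => ?_
    simp only [ContinuousLinearMap.smulRight_apply, zero_apply, zero_smul]
  rw [e1, e2] at hform
  have hη : (oneOf F).η ξ (S j) (posj R m j p) (shE R m S p j) =
      etaP (F.η ξ) (F.A ξ) (rootsL p.2.2.1 p.2.2.2.1) (posj R m j p).2 (shE R m S p j) := by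
    rw [farOk_neck hS h]
    exact etaC_false _ _
  unfold lgP
  rw [hη, hform]
  refine ContinuousLinearMap.ext fun v => ?_
  simp only [ContinuousLinearMap.comp_apply, sub_apply, add_apply, smul_apply, smul_eq_mul,
    _root_.sum_apply, ContinuousLinearMap.smulRight_apply, zero_mul, add_zero, sub_zero,
    zero_apply, lgE, tauN, fderiv_posj]
  congr 1
  exact Finset.sum_congr rfl fun i _ => mul_comm _ _

end Geo

/-! ### the assembly -/

/-- `lgU` is the pulled back flat form on the necks -/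
def UNk (F : FlatFam) (lgU : LegF) : Prop := ∃ N₀ : ℝ, 1 ≤ N₀ ∧ ∀ R m S, FarOk R S →
  ∀ p, Adm R m S N₀ p → ∀ j k, R.pl j = Sum.inl k → ∀ ξ, IsCl ξ →
    lgU R m S j ξ p = lgE F R m S j ξ p

/-- bound of the potential from a root on the disc of the root -/
def EwB (F : FlatFam) : Prop := ∃ K N₀ : ℝ, 0 ≤ K ∧ 1 ≤ N₀ ∧ ∀ y α, BaseOk N₀ y α → ∀ ξ, IsCl ξ →
  ∀ (i : Fin 6) (x v : ℂ), 4 * ‖x - rootsL y α i‖ ^ 2 < hh (rootsL y α) i →
    v ^ 2 = ff (rootsL y α, x) → v ≠ 0 →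
    |F.A ξ (rootsL y α) (EWv (rootsL y α) i x v)| ≤ K * (|bt ξ (kp i)| + ‖ξ‖ / y (kp i)) ∧
    ((∀ l, bt ξ l = 0) → |F.A ξ (rootsL y α) (EWv (rootsL y α) i x v)| ≤ K * ww ξ y)

/-- bounds of the differential of the cut-off at a root -/
def TauB : Prop := ∃ C N₀ : ℝ, 0 ≤ C ∧ 1 ≤ N₀ ∧ ∀ (R : H95.Region) (m : ∀ k, Fin (R.n k + 1))
  (S : L → Bool) (p : Co R m), Adm R m S N₀ p → ∀ (j : L) (k : Fin 3), R.pl j = Sum.inl k →
  ∀ i : Fin 6, kp i = k →
    (∀ d : (W R m).Dir R.Cm, (∀ l, d ≠ .y l) → |tauN R m i j p ((W R m).vec d)| ≤ C) ∧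
    (∀ f : (W R m).Fr, (W R m).nk f.1 ≠ k → tauN R m i j p ((W R m).vec (.u f)) = 0 ∧
      tauN R m i j p ((W R m).vec (.ph f)) = 0) ∧
    (∀ l, l ≠ k → |tauN R m i j p ((W R m).vec (.al l))| ≤ C / p.2.2.1 l) ∧
    ∀ l, |tauN R m i j p ((W R m).eul p l)| ≤ C / p.2.2.1 l

/-- **(N1)** from the bounds of the potential and of the cut-off. -/
theorem neckForm_of {F : FlatFam} {lgU : LegF} (hU : UNk F lgU) (hE : EwB F) (hT : TauB) :
    NeckForm lgU (lgP (oneOf F)) := by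
  obtain ⟨N1, hN1, HU⟩ := hU
  obtain ⟨K, N2, hK, hN2, HE⟩ := hE
  obtain ⟨C, N3, hC, hN3, HT⟩ := hT
  refine ⟨max (max C K) 2, max 5 (max N1 (max N2 N3)), by positivity,
    le_trans (by norm_num) (le_max_left _ _), ?_⟩
  intro R m S hS p hp j k h ξ hξ
  have hp5 : Adm R m S 5 p := H803.adm_mono (le_max_left _ _) hp
  have hp1 : Adm R m S N1 p :=
    H803.adm_mono ((le_max_left _ _).trans (le_max_right _ _)) hp
  have hp2 : Adm R m S N2 p :=
    H803.adm_mono ((le_max_left _ _).trans ((le_max_right _ _).trans (le_max_right _ _))) hp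
  have hp3 : Adm R m S N3 p :=
    H803.adm_mono ((le_max_right _ _).trans ((le_max_right _ _).trans (le_max_right _ _))) hp
  have hCC : C ≤ max (max C K) 2 := (le_max_left _ _).trans (le_max_left _ _)
  have hKK : K ≤ max (max C K) 2 := (le_max_right _ _).trans (le_max_left _ _)
  have h2 : 2 ≤ max (max C K) 2 := le_max_right _ _
  have hbX := adm_mem le_rfl hp5
  have hb := sub_XX hbX
  have hy : ∀ l, 0 < p.2.2.1 l := fun l => by
    have := adm_five le_rfl hp5 l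
    linarith
  rw [HU R m S hS p hp1 j k h ξ hξ]
  by_cases hex : ∃ i, 32 * ‖(posj R m j p).2 - rootsL p.2.2.1 p.2.2.2.1 i‖ ^ 2 <
      hh (rootsL p.2.2.1 p.2.2.2.1) i
  · obtain ⟨i, hi⟩ := hex
    obtain ⟨hk, hdep⟩ := loc_disc le_rfl hp5 h hi
    have hform := lgP_neck_eq F hS le_rfl hp5 h hξ {i} fun i' hi' => by
      by_contra hc
      push Not at hc
      exact hi' (Finset.mem_singleton.2 (disc_unique hb hc hi))
    rw [Finset.sum_singleton, Finset.sum_singleton] at hform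
    have h4 : 4 * ‖(posj R m j p).2 - rootsL p.2.2.1 p.2.2.2.1 i‖ ^ 2 <
        hh (rootsL p.2.2.1 p.2.2.2.1) i := by
      have := sq_nonneg ‖(posj R m j p).2 - rootsL p.2.2.1 p.2.2.2.1 i‖
      linarith
    obtain ⟨e1, e2⟩ := HE p.2.2.1 p.2.2.2.1 ⟨hp2.2.1, hp2.2.2.1⟩ ξ hξ i (posj R m j p).2
      (shE R m S p j) h4 (neck_sq hS le_rfl hp5 h) (adm_ne hp5 j)
    obtain ⟨t1, t2, t3, t4⟩ := HT R m S p hp3 j k h i hk
    refine ⟨_, _, tauN R m i j p, chiW_nonneg _ _ _, chiW_le_one _ _ _, hform,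
      Or.inr (hdep.trans h2), ?_, fun hb0 => ?_, fun d hd => (t1 d hd).trans hCC, t2,
      fun l hl => (t3 l hl).trans (div_le_div_of_nonneg_right hCC (hy l).le),
      fun l => (t4 l).trans (div_le_div_of_nonneg_right hCC (hy l).le)⟩
    · rw [hk] at e1
      refine e1.trans (mul_le_mul_of_nonneg_right hKK ?_)
      have := div_nonneg (norm_nonneg ξ) (hy k).le
      positivity
    · exact (e2 hb0).trans (mul_le_mul_of_nonneg_right hKK (H803.ww_nonneg ξ hy))
  · push Not at hex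
    have hform := lgP_neck_eq F hS le_rfl hp5 h hξ ∅ fun i _ => hex i
    rw [Finset.sum_empty, Finset.sum_empty] at hform
    have hM : 0 ≤ max (max C K) 2 := le_trans (by norm_num) h2
    refine ⟨0, 0, 0, le_rfl, zero_le_one, ?_, Or.inl ⟨rfl, rfl⟩, ?_, fun _ => ?_, fun d _ => ?_,
      fun f _ => ⟨rfl, rfl⟩, fun l _ => ?_, fun l => ?_⟩
    · rw [hform]
      simp
    · rw [abs_zero]
      have := div_nonneg (norm_nonneg ξ) (hy k).le
      positivity
    · rw [abs_zero]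
      exact mul_nonneg hM (H803.ww_nonneg ξ hy)
    · simpa using hM
    · have := div_nonneg hM (hy l).le
      simpa using this
    · have := div_nonneg hM (hy l).le
      simpa using this

end Vale.Agent.P273.H604

end
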