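import Vale.Agent.P273.H604.GInf

/-!
# P273, crew ASY0/ASY1, item (c): the cut-off form, exact formula and bounds

`etaP η A` in a direction `w = (β, ζ)` of `Bs × ℂ`.
-/

namespace Vale.Agent.P273.H604

open scoped ContDiff Topology
open Set Filter MeasureTheory Finset
open H214

noncomputable section

variable {H : Type*} [NormedAddCommGroup H] [NormedSpace ℝ H]
variable {O : Set Bs} {η : Bs → ℂ → ℂ → (Bs × ℂ →L[ℝ] H)} {A : Bs → (ℂ × ℂ →L[ℝ] H)}

/-! ### (F1) at a root -/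

/-- The potential near the root `b j` along a branch. -/
def gW (A : Bs → (ℂ × ℂ →L[ℝ] H)) (j : Fin 6) (Y : Bs × ℂ → ℂ) (q : Bs × ℂ) : H :=
  A q.1 (EWv q.1 j q.2 (Y q))

/-- Its differential at a point of the curve. -/
def dW (A : Bs → (ℂ × ℂ →L[ℝ] H)) (j : Fin 6) (b : Bs) (x y : ℂ) : Bs × ℂ →L[ℝ] H :=
  fderiv ℝ (gW A j (Ybr (b, x) y)) (b, x)

theorem contDiffAt_gW {j : Fin 6} {p : Bs × ℂ} (hp : p ∈ Dj j) (hA : ContDiffAt ℝ ∞ A p.1)
    {Y : Bs × ℂ → ℂ} (hY : IsBr Y p) : ContDiffAt ℝ ∞ (gW A j Y) p :=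
  (contDiffAt_A hA).clm_apply (contDiffAt_EWv hp hY.smooth hY.ne_zero)

theorem dW_eq {j : Fin 6} {p : Bs × ℂ} {Y : Bs × ℂ → ℂ} (hY : IsBr Y p) :
    dW A j p.1 p.2 (Y p) = fderiv ℝ (gW A j Y) p := by
  unfold dW
  refine Filter.EventuallyEq.fderiv_eq ?_
  filter_upwards [hY.eq_Ybr] with q hq
  simp only [gW]
  rw [hq]

theorem minSm : minSmoothness ℝ 2 ≤ (∞ : WithTop ℕ∞) := by
  simp only [minSmoothness_of_isRCLikeNormedField]
  exact WithTop.coe_le_coe.2 (le_top : (2 : ℕ∞) ≤ ⊤)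

/-- A closed form minus the differential of a function. -/
theorem closed_sub {U : Bs × ℂ → (Bs × ℂ →L[ℝ] H)} {g : Bs × ℂ → H} {p : Bs × ℂ}
    (hU : ContDiffAt ℝ ∞ U p) (hc : ∀ v w, fderiv ℝ U p v w = fderiv ℝ U p w v)
    (hg : ContDiffAt ℝ ∞ g p) (v w : Bs × ℂ) :
    fderiv ℝ (fun q => U q - fderiv ℝ g q) p v w =
      fderiv ℝ (fun q => U q - fderiv ℝ g q) p w v := by
  have h2 : DifferentiableAt ℝ (fun q => fderiv ℝ g q) p :=
    (hg.fderiv_right (m := ∞) (by simp)).differentiableAt (by simp)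
  have h3 : DifferentiableAt ℝ U p := hU.differentiableAt (by simp)
  rw [fderiv_fun_sub h3 h2]
  have h4 : IsSymmSndFDerivAt ℝ g p := hg.isSymmSndFDerivAt minSm
  simp only [_root_.sub_apply]
  rw [hc v w, h4.eq v w]

theorem isOpen_Dj' (j : Fin 6) : IsOpen (Dj j) := isOpen_Dj j

/-- **(F1)** On the disc of the root `b j` the form is the differential of the odd primitive. -/
theorem eta_eq_dW (hF : FlatOn O η A) {j : Fin 6} {b : Bs} (hb : b ∈ O) {x y : ℂ}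
    (h : 4 * ‖x - b j‖ ^ 2 < hh b j) (hx : x ≠ b j) (hy : y ^ 2 = ff (b, x)) :
    η b x y = dW A j b x y := by
  have hC := hF.sub hb
  set ρ : ℝ → ℝ := fun t => 1 - 3 / 4 * Real.smoothTransition t with hρ
  have hρ0 : ∀ t, 1 / 4 ≤ ρ t := fun t => by
    have := Real.smoothTransition.le_one t
    simp only [hρ]; linarith
  have hρ1 : ∀ t, ρ t ≤ 1 := fun t => by
    have := Real.smoothTransition.nonneg t
    simp only [hρ]; linarith
  have hρd : Differentiable ℝ ρ := by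
    have h1 : Differentiable ℝ Real.smoothTransition :=
      (Real.smoothTransition.contDiff (n := 1)).differentiable (by simp)
    simp only [hρ]
    fun_prop
  set γ : ℝ → ℂ := fun t => b j + (ρ t : ℂ) * (x - b j) with hγ
  have hγn : ∀ t, ‖γ t - b j‖ = ρ t * ‖x - b j‖ := fun t => by
    simp only [hγ, add_sub_cancel_left, norm_mul, Complex.norm_real, Real.norm_eq_abs]
    rw [abs_of_nonneg (by linarith [hρ0 t])]
  have hγh : ∀ t, 4 * ‖γ t - b j‖ ^ 2 < hh b j := fun t => by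
    rw [hγn]
    have h1 : (ρ t * ‖x - b j‖) ^ 2 ≤ ‖x - b j‖ ^ 2 := by
      refine pow_le_pow_left₀ (mul_nonneg (by linarith [hρ0 t]) (norm_nonneg _)) ?_ 2
      have := mul_le_mul_of_nonneg_right (hρ1 t) (norm_nonneg (x - b j))
      linarith
    linarith
  have hγD : ∀ t, (b, γ t) ∈ Dj j := fun t => mem_Dj_of_hh hC (hγh t)
  have hxD : (b, x) ∈ Dj j := mem_Dj_of_hh hC h
  have hγx : ∀ t, γ t ≠ b j := fun t h0 => by
    have h1 := hγn t
    rw [h0, sub_self, norm_zero] at h1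
    have h2 : 0 < ‖x - b j‖ := norm_pos_iff.2 (sub_ne_zero.2 hx)
    have h3 := mul_pos (by linarith [hρ0 t] : 0 < ρ t) h2
    linarith
  have hff : ∀ z : ℂ, (b, z) ∈ Dj j → ff (b, z) =
      (z - b j) * (Pj j (b, z) ^ 2 * ∏ i ∈ univ.erase j, (b j - b i)) := by
    intro z hz
    rw [Pj_sq hz]
    exact (Finset.mul_prod_erase univ (fun i => z - b i) (Finset.mem_univ j)).symm
  have hc0 : ∏ i ∈ univ.erase j, (b j - b i) ≠ 0 :=
    Finset.prod_ne_zero_iff.2 fun i hi => ne_of_Dj hxD (Finset.mem_erase.1 hi).1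
  have hne : ∀ t, ff (b, γ t) ≠ 0 := fun t => by
    rw [hff _ (hγD t)]
    exact mul_ne_zero (sub_ne_zero.2 (hγx t)) (mul_ne_zero (pow_ne_zero _ (Pj_ne_zero _ _)) hc0)
  set yy : ℝ → ℂ := fun t => y * (Real.sqrt (ρ t) : ℂ) * (Pj j (b, γ t) / Pj j (b, x)) with hyy
  have hsq : ∀ t, yy t ^ 2 = ff (b, γ t) := by
    intro t
    have h1 : γ t - b j = (ρ t : ℂ) * (x - b j) := by simp only [hγ, add_sub_cancel_left]
    have h2 : ((Real.sqrt (ρ t) : ℝ) : ℂ) ^ 2 = (ρ t : ℂ) := by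
      rw [← Complex.ofReal_pow, Real.sq_sqrt (by linarith [hρ0 t])]
    have h3 := Pj_ne_zero j (b, x)
    rw [hff _ (hγD t), h1]
    simp only [hyy, mul_pow, div_pow]
    rw [hy, hff _ hxD, h2]
    field_simp
  have hγc : Continuous γ := by
    have := hρd.continuous
    simp only [hγ]
    fun_prop
  have hγd : ∀ t, DifferentiableAt ℝ γ t := fun t => by
    have h1 : DifferentiableAt ℝ (fun t => (ρ t : ℂ)) t :=
      Complex.ofRealCLM.differentiableAt.comp t (hρd t)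
    exact (h1.mul_const _).const_add _
  have hyc : Continuous yy := by
    have h4 := hρd.continuous
    refine Continuous.mul (by fun_prop) (Continuous.div_const ?_ _)
    rw [continuous_iff_continuousAt]
    intro t
    have h1 : ContinuousAt (Pj j) (b, γ t) := (contDiffAt_Pj (hγD t)).continuousAt
    exact ContinuousAt.comp (f := fun t : ℝ => ((b, γ t) : Bs × ℂ)) h1 (by fun_prop)
  set β : Bs → ℂ → ℂ → (Bs × ℂ →L[ℝ] H) := fun b x y => η b x y - dW A j b x y with hβ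
  have hβe : ∀ t, ∀ Y, IsBr Y (b, γ t) → (fun q : Bs × ℂ => β q.1 q.2 (Y q)) =ᶠ[𝓝 (b, γ t)]
      fun q => η q.1 q.2 (Y q) - fderiv ℝ (gW A j Y) q := fun t Y hY => by
    filter_upwards [hY.eventually] with q hq
    simp only [hβ]
    rw [dW_eq hq]
  have hsm : ∀ t, ∀ Y, IsBr Y (b, γ t) →
      ContDiffAt ℝ ∞ (fun q : Bs × ℂ => η q.1 q.2 (Y q)) (b, γ t) := fun t Y hY =>
    hF.smooth (b, γ t) hb Y hY
  have key := const_along_path (β := β) (b := b) hγd hyc hsq hne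
    (fun t Y hY => by
      refine ContDiffAt.differentiableAt (n := ∞) ?_ (by simp)
      refine ContDiffAt.congr_of_eventuallyEq ?_ (hβe t Y hY)
      exact (hsm t Y hY).sub
        ((contDiffAt_gW (hγD t) (hF.smoothA _ hb) hY).fderiv_right (m := ∞) (by simp)))
    (fun t Y hY v w => by
      rw [(hβe t Y hY).fderiv_eq]
      exact closed_sub (hsm t Y hY) (hF.closed (b, γ t) hb Y hY)
        (contDiffAt_gW (hγD t) (hF.smoothA _ hb) hY) v w)
    (fun t Y hY => by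
      have h5 : ∀ᶠ q : Bs × ℂ in 𝓝 (b, γ t), q.1 ∈ O :=
        continuousAt_fst.eventually_mem (hF.isOpen.mem_nhds hb)
      have h6 : ∀ᶠ q : Bs × ℂ in 𝓝 (b, γ t), q ∈ Dj j := (isOpen_Dj j).mem_nhds (hγD t)
      have h7 : ∀ᶠ q : Bs × ℂ in 𝓝 (b, γ t), q.2 ≠ q.1 j := by
        have h8 : IsOpen {q : Bs × ℂ | q.2 ≠ q.1 j} := isOpen_ne_fun (by fun_prop) (by fun_prop)
        exact h8.eventually_mem (hγx t)
      filter_upwards [hY.eventually, h5, h6, h7] with q hq hq2 hq3 hq4 ζ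
      simp only [hβ]
      rw [dW_eq hq, _root_.sub_apply]
      have h8 := vert_EWv hq3 hq4 (hF.smoothA _ hq2) hq ζ
      unfold gW
      rw [h8, hF.vert _ hq2 _ _ hq.sq.self_of_nhds hq.ne_zero, sub_self]) 0 1
  have hP := Pj_ne_zero j (b, x)
  have e0 : γ 0 = x := by simp [hγ, hρ, Real.smoothTransition.zero]
  have y0 : yy 0 = y := by
    simp only [hyy, e0, div_self hP]
    simp [hρ, Real.smoothTransition.zero]
  have hsmall : 64 * ‖γ 1 - b j‖ ^ 2 < hh b j := by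
    rw [hγn]
    have : ρ 1 = 1 / 4 := by simp only [hρ, Real.smoothTransition.one]; norm_num
    rw [this]
    nlinarith
  have h9 : β b (γ 1) (yy 1) = 0 := by
    have hY : IsBr (Ybr (b, γ 1) (yy 1)) (b, γ 1) := isBr_Ybr (hne 1) (hsq 1)
    have h10 := etaP_eq_zero hF hb hsmall (hγx 1) (hsq 1)
    have h11 := dcut_near_root (A := A) (p := (b, γ 1)) hC hsmall (hγx 1) hY
    rw [Ybr_self (hne 1)] at h11
    unfold etaP at h10
    simp only at h11
    rw [h11] at h10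
    exact h10
  rw [e0, y0, h9] at key
  exact sub_eq_zero.1 key

/-! ### (F1) near infinity -/

/-- The region where the odd primitive from infinity is defined (part of it). -/
def MI : Set (Bs × ℂ) := {p | Rr p.1 < ‖p.2‖}

theorem isOpen_MI : IsOpen MI := by
  have := continuous_Rr
  exact isOpen_lt (by fun_prop) (by fun_prop)

theorem MI.ne_zero {p : Bs × ℂ} (h : p ∈ MI) : p.2 ≠ 0 := by
  have h1 : Rr p.1 < ‖p.2‖ := h
  have h2 := Rr_pos p.1
  exact norm_pos_iff.1 (by linarith)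

theorem MI.mem_DI {p : Bs × ℂ} (h : p ∈ MI) : (p.1, p.2⁻¹) ∈ DI :=
  mem_DI_inv (two_mul_norm_lt (le_of_lt h))

theorem MI.ff_ne {p : Bs × ℂ} (h : p ∈ MI) : ff p ≠ 0 := by
  rw [ff_ne_zero_iff]
  intro i hi
  have h1 : Rr p.1 < ‖p.2‖ := h
  have h2 := norm_le_Rr p.1 i
  have h3 := Rr_pos p.1
  rw [hi] at h1
  linarith [norm_nonneg (p.1 i)]

theorem MI.chiW {p : Bs × ℂ} (hb : p.1 ∈ Cf) (h : p ∈ MI) (j : Fin 6) :
    hh p.1 j < 32 * ‖p.2 - p.1 j‖ ^ 2 := by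
  obtain ⟨i, hi⟩ : ∃ i : Fin 6, i ≠ j := exists_ne j
  have h1 := hh_le hb hi
  have h2 : Rr p.1 < ‖p.2‖ := h
  have h3 := norm_le_Rr p.1 i
  have h4 := norm_le_Rr p.1 j
  have h5 := norm_sub_le (p.1 i) (p.1 j)
  have h6 := norm_sub_norm_le p.2 (p.1 j)
  have h7 := Rr_pos p.1
  have h8 : ‖p.1 i - p.1 j‖ ≤ ‖p.2 - p.1 j‖ := by linarith
  have h9 : ‖p.1 i - p.1 j‖ ^ 2 ≤ ‖p.2 - p.1 j‖ ^ 2 := pow_le_pow_left₀ (norm_nonneg _) h8 2
  have h10 : 0 < ‖p.2 - p.1 j‖ := by linarith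
  have h11 : 0 < ‖p.2 - p.1 j‖ ^ 2 := by positivity
  linarith

theorem contDiffAt_eI' {Y : Bs × ℂ → ℂ} {p : Bs × ℂ} (hA : ContDiffAt ℝ ∞ A p.1)
    (hp : p ∈ MI) (h : IsBr Y p) : ContDiffAt ℝ ∞ (eI A Y) p := by
  have h1 : ContDiffAt ℂ ∞ (fun q : Bs × ℂ => (q, Y q)) p := contDiffAt_id.prodMk h.smoothC
  have h3 : ∀ k, ContDiffAt ℝ ∞ (fun q : Bs × ℂ => EIc k q.1 q.2 (Y q)) p := fun k =>
    (ContDiffAt.comp (g := fun q : (Bs × ℂ) × ℂ => EIc k q.1.1 q.1.2 q.2)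
    (f := fun q : Bs × ℂ => (q, Y q)) p
    (contDiffAt_EIc k (MI.ne_zero hp) (MI.mem_DI hp) h.ne_zero) h1).restrict_scalars ℝ
  exact (contDiffAt_A hA).clm_apply ((h3 0).prodMk (h3 1))

theorem fderiv_eI_vert' {Y : Bs × ℂ → ℂ} {p : Bs × ℂ} (hA : ContDiffAt ℝ ∞ A p.1)
    (hp : p ∈ MI) (h : IsBr Y p) (ζ : ℂ) :
    fderiv ℝ (eI A Y) p (0, ζ) = A p.1 (ζ / Y p, p.2 * ζ / Y p) := by
  have h0 : DifferentiableAt ℝ (eI A Y) p := (contDiffAt_eI' hA hp h).differentiableAt (by simp)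
  have h1 : HasFDerivAt (fun x : ℂ => eI A Y (p.1, x))
      ((fderiv ℝ (eI A Y) p).comp (ContinuousLinearMap.inr ℝ Bs ℂ)) p.2 :=
    HasFDerivAt.comp (g := eI A Y) (f := fun x : ℂ => ((p.1, x) : Bs × ℂ)) p.2 h0.hasFDerivAt
      (hasFDerivAt_prodMk_right p.1 p.2)
  have hsec : ContinuousAt (fun x : ℂ => ((p.1, x) : Bs × ℂ)) p.2 := by fun_prop
  have hk : ∀ k ≤ 1, HasFDerivAt (fun x : ℂ => EIc k p.1 x (Y (p.1, x)))
      (((ContinuousLinearMap.toSpanSingleton ℂ (p.2 ^ k / Y p))).restrictScalars ℝ) p.2 := by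
    intro k hk
    have h2 : HasDerivAt (fun x : ℂ => EIc k p.1 x (Y (p.1, x))) (p.2 ^ k / Y (p.1, p.2)) p.2 := by
      refine hasDerivAt_EIc hk (MI.ne_zero hp) (MI.mem_DI hp)
        (Y := fun x => Y (p.1, x)) ?_ ?_
      · exact ContinuousAt.comp (g := Y) (f := fun x : ℂ => ((p.1, x) : Bs × ℂ)) h.cont hsec
      · have := hsec.eventually h.sq
        filter_upwards [this] with x hx using hx
    exact h2.hasFDerivAt.restrictScalars ℝ
  have h3 : HasFDerivAt (fun x : ℂ => eI A Y (p.1, x))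
      ((A p.1).comp ((((ContinuousLinearMap.toSpanSingleton ℂ (p.2 ^ 0 / Y p))).restrictScalars
        ℝ).prod (((ContinuousLinearMap.toSpanSingleton ℂ (p.2 ^ 1 / Y p))).restrictScalars ℝ)))
      p.2 := by
    exact HasFDerivAt.comp (g := A p.1) (f := fun x : ℂ => EIv p.1 x (Y (p.1, x))) p.2
      (A p.1).hasFDerivAt ((hk 0 (by norm_num)).prodMk (hk 1 le_rfl))
  have h4 := h1.unique h3
  have h5 := congrArg (fun L : ℂ →L[ℝ] H => L ζ) h4
  simp only [ContinuousLinearMap.comp_apply, ContinuousLinearMap.inr_apply] at h5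
  rw [h5]
  congr 1
  simp only [ContinuousLinearMap.prod_apply, ContinuousLinearMap.coe_restrictScalars',
    ContinuousLinearMap.toSpanSingleton_apply, smul_eq_mul, pow_zero, pow_one]
  ext <;> simp <;> ring

/-- The differential of the odd primitive from infinity at a point of the curve. -/
def dI (A : Bs → (ℂ × ℂ →L[ℝ] H)) (b : Bs) (x y : ℂ) : Bs × ℂ →L[ℝ] H :=
  fderiv ℝ (eI A (Ybr (b, x) y)) (b, x)

theorem dI_eq {p : Bs × ℂ} {Y : Bs × ℂ → ℂ} (hY : IsBr Y p) :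
    dI A p.1 p.2 (Y p) = fderiv ℝ (eI A Y) p := by
  unfold dI
  refine Filter.EventuallyEq.fderiv_eq ?_
  filter_upwards [hY.eq_Ybr] with q hq
  simp only [eI]
  rw [hq]

/-- The sheet of a point near infinity. -/
def sgI (b : Bs) (x y : ℂ) : ℝ := (y / (x ^ 3 * Pinf b x⁻¹)).re

theorem sgI_spec {b : Bs} {x y : ℂ} (hx : (b, x) ∈ MI) (hy : y ^ 2 = ff (b, x)) :
    (sgI b x y = 1 ∨ sgI b x y = -1) ∧ y = (sgI b x y : ℂ) * (x ^ 3 * Pinf b x⁻¹) := by
  have hP : x ^ 3 * Pinf b x⁻¹ ≠ 0 :=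
    mul_ne_zero (pow_ne_zero _ (MI.ne_zero hx)) (Pinf_ne_zero _ _)
  have h1 := exists_sign (MI.ne_zero hx) (MI.mem_DI hx) hy
  have h2 : y = y / (x ^ 3 * Pinf b x⁻¹) * (x ^ 3 * Pinf b x⁻¹) := by
    rw [div_mul_cancel₀ _ hP]
  unfold sgI
  rcases h1 with h1 | h1
  · rw [h1] at h2 ⊢
    simpa using h2
  · rw [h1] at h2 ⊢
    simpa using h2

theorem abs_sgI {b : Bs} {x y : ℂ} (hx : (b, x) ∈ MI) (hy : y ^ 2 = ff (b, x)) :
    |sgI b x y| = 1 := by
  rcases (sgI_spec hx hy).1 with h | h <;> rw [h] <;> norm_num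

/-- **(F1)** Near infinity the form is the differential of the odd primitive plus a form on the
base. -/
theorem eta_eq_dI (hF : FlatOn O η A) {b : Bs} (hb : b ∈ O) {x y : ℂ} (hx : (b, x) ∈ MI)
    (hy : y ^ 2 = ff (b, x)) :
    η b x y = dI A b x y + sgI b x y • (Cinf η A b).comp (ContinuousLinearMap.fst ℝ Bs ℂ) := by
  obtain ⟨hs, hys⟩ := sgI_spec hx hy
  set s := sgI b x y with hsdef
  have hs2 : (s : ℂ) ^ 2 = 1 := by rcases hs with h | h <;> rw [h] <;> norm_num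
  set γ : ℝ → ℂ := fun t => (1 + Real.smoothTransition t : ℝ) * x with hγ
  have hγn : ∀ t, ‖x‖ ≤ ‖γ t‖ := fun t => by
    have h1 := Real.smoothTransition.nonneg t
    simp only [hγ, norm_mul, Complex.norm_real, Real.norm_eq_abs]
    rw [abs_of_nonneg (by linarith)]
    nlinarith [norm_nonneg x]
  have hγM : ∀ t, (b, γ t) ∈ MI := fun t => lt_of_lt_of_le hx (hγn t)
  have hτd : Differentiable ℝ Real.smoothTransition :=
    (Real.smoothTransition.contDiff (n := 1)).differentiable (by simp)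
  have hγd : ∀ t, DifferentiableAt ℝ γ t := fun t => by
    have h1 : DifferentiableAt ℝ (fun t => ((1 + Real.smoothTransition t : ℝ) : ℂ)) t :=
      Complex.ofRealCLM.differentiableAt.comp t ((hτd t).const_add 1)
    exact h1.mul_const _
  have hγc : Continuous γ := continuous_iff_continuousAt.2 fun t => (hγd t).continuousAt
  have hYinf : ∀ t, IsBr Yinf (b, γ t) := by
    intro t
    have h0 := MI.ne_zero (hγM t)
    have h1 : ContinuousAt (fun q : Bs × ℂ => ((q.1, q.2⁻¹) : Bs × ℂ)) (b, γ t) :=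
      continuousAt_fst.prodMk (continuousAt_snd.inv₀ h0)
    have h2 : ContinuousAt (fun q : Bs × ℂ => Pinf q.1 q.2⁻¹) (b, γ t) :=
      ContinuousAt.comp (g := fun p : Bs × ℂ => Pinf p.1 p.2)
        (f := fun q : Bs × ℂ => ((q.1, q.2⁻¹) : Bs × ℂ)) (differentiableAt_Pinf
          (MI.mem_DI (hγM t))).continuousAt h1
    refine ⟨MI.ff_ne (hγM t), (continuousAt_snd.pow 3).mul h2, ?_⟩
    filter_upwards [isOpen_MI.mem_nhds (hγM t)] with q hq
    exact cube_Pinf_sq (MI.ne_zero hq) (MI.mem_DI hq)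
  have hcont : Continuous (fun t => (s : ℂ) * Yinf (b, γ t)) := by
    refine continuous_const.mul (continuous_iff_continuousAt.2 fun t => ?_)
    exact ContinuousAt.comp (g := Yinf) (f := fun t => ((b, γ t) : Bs × ℂ))
      (hYinf t).cont (continuousAt_const.prodMk hγc.continuousAt)
  set β : Bs → ℂ → ℂ → (Bs × ℂ →L[ℝ] H) := fun b x y => η b x y - dI A b x y with hβ
  have hβe : ∀ t, ∀ Y, IsBr Y (b, γ t) → (fun q : Bs × ℂ => β q.1 q.2 (Y q)) =ᶠ[𝓝 (b, γ t)]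
      fun q => η q.1 q.2 (Y q) - fderiv ℝ (eI A Y) q := fun t Y hY => by
    filter_upwards [hY.eventually] with q hq
    simp only [hβ]
    rw [dI_eq hq]
  have hsm : ∀ t, ∀ Y, IsBr Y (b, γ t) →
      ContDiffAt ℝ ∞ (fun q : Bs × ℂ => η q.1 q.2 (Y q)) (b, γ t) := fun t Y hY =>
    hF.smooth (b, γ t) hb Y hY
  have key := const_along_path (β := β) (b := b) hγd hcont
    (fun t => by
      rw [mul_pow, hs2, one_mul]
      exact (hYinf t).sq.self_of_nhds)
    (fun t => MI.ff_ne (hγM t))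
    (fun t Y hY => by
      refine ContDiffAt.differentiableAt (n := ∞) ?_ (by simp)
      refine ContDiffAt.congr_of_eventuallyEq ?_ (hβe t Y hY)
      exact (hsm t Y hY).sub
        ((contDiffAt_eI' (hF.smoothA _ hb) (hγM t) hY).fderiv_right (m := ∞) (by simp)))
    (fun t Y hY v w => by
      rw [(hβe t Y hY).fderiv_eq]
      exact closed_sub (hsm t Y hY) (hF.closed (b, γ t) hb Y hY)
        (contDiffAt_eI' (hF.smoothA _ hb) (hγM t) hY) v w)
    (fun t Y hY => by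
      have h5 : ∀ᶠ q : Bs × ℂ in 𝓝 (b, γ t), q.1 ∈ O :=
        continuousAt_fst.eventually_mem (hF.isOpen.mem_nhds hb)
      filter_upwards [hY.eventually, h5, isOpen_MI.mem_nhds (hγM t)] with q hq hq2 hq3 ζ
      simp only [hβ]
      rw [dI_eq hq, _root_.sub_apply, fderiv_eI_vert' (hF.smoothA _ hq2) hq3 hq ζ,
        hF.vert _ hq2 _ _ hq.sq.self_of_nhds hq.ne_zero, sub_self]) 0 1
  have e0 : γ 0 = x := by simp [hγ, Real.smoothTransition.zero]
  have y0 : (s : ℂ) * Yinf (b, γ 0) = y := by rw [e0]; exact hys.symm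
  have hfar : (b, γ 1) ∈ Far := by
    change 2 * Rr b ^ 2 < ‖γ 1‖ ^ 2
    have h1 : ‖γ 1‖ = 2 * ‖x‖ := by
      simp only [hγ, Real.smoothTransition.one, norm_mul]
      norm_num
    have h2 : Rr b < ‖x‖ := hx
    rw [h1]
    nlinarith [Rr_pos b]
  have h9 : β b (γ 1) ((s : ℂ) * Yinf (b, γ 1)) =
      s • (Cinf η A b).comp (ContinuousLinearMap.fst ℝ Bs ℂ) := by
    rw [← etaP_inf hF hb hfar hs]
    have hsq : ((s : ℂ) * Yinf (b, γ 1)) ^ 2 = ff (b, γ 1) := by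
      rw [mul_pow, hs2, one_mul]
      exact (hYinf 1).sq.self_of_nhds
    have hY : IsBr (Ybr (b, γ 1) ((s : ℂ) * Yinf (b, γ 1))) (b, γ 1) :=
      isBr_Ybr (MI.ff_ne (hγM 1)) hsq
    have h11 := dcut_far (A := A) hF.isOpen hF.sub (p := (b, γ 1)) hb hfar hY
    rw [Ybr_self (MI.ff_ne (hγM 1))] at h11
    simp only at h11
    unfold etaP
    change _ = η b (γ 1) ((s : ℂ) * Yinf (b, γ 1)) - dcut A b (γ 1) ((s : ℂ) * Yinf (b, γ 1))
    rw [h11]
    rfl
  rw [e0] at key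
  rw [show (s : ℂ) * Yinf (b, x) = y by rw [← y0, e0], h9] at key
  rw [← key]
  simp only [hβ]
  abel

end

end Vale.Agent.P273.H604
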